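import Vale.Agent.P100.Moving
import Mathlib.Analysis.Calculus.ParametricIntervalIntegral
import Mathlib.Analysis.SpecialFunctions.Pow.Deriv
import Mathlib.MeasureTheory.Integral.IntervalIntegral.FundThmCalculus

/-!
Radial averages, scalings and radial factors in the Laplacian.
-/

open Filter Topology Set MeasureTheory
open scoped InnerProductSpace Interval

namespace Vale.Agent.P100.Fourth

variable {n : ℕ} {G : Type*} [NormedAddCommGroup G] [NormedSpace ℝ G]

/-- A weighted average along the ray. -/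
noncomputable def rayInt (h : ℝ) (w : ℝ → ℝ) (F : En n → G) (x : En n) : G :=
  ∫ t in (0 : ℝ)..h, w t • F (Real.exp (-t) • x)

lemma rayInt_hasFDerivAt [CompleteSpace G] {h : ℝ} {w : ℝ → ℝ} (hw : Continuous w) {F : En n → G}
    (hF : ContDiffOn ℝ 1 F {0}ᶜ) {x₀ : En n} (hx : x₀ ≠ 0) :
    HasFDerivAt (rayInt h w F)
      (rayInt h (fun t => w t * Real.exp (-t)) (fderiv ℝ F) x₀) x₀ := by
  have hne : ∀ (t : ℝ) {x : En n}, x ≠ 0 → Real.exp (-t) • x ∈ ({0}ᶜ : Set (En n)) := fun t x hx =>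
    smul_ne_zero (Real.exp_pos _).ne' hx
  have hr : 0 < ‖x₀‖ / 2 := by positivity
  have hball : ∀ x ∈ Metric.closedBall x₀ (‖x₀‖ / 2), x ≠ 0 := by
    intro x hx h0
    rw [Metric.mem_closedBall, h0, dist_zero_left] at hx
    linarith
  have hdF : ContinuousOn (fderiv ℝ F) {0}ᶜ :=
    hF.continuousOn_fderiv_of_isOpen isOpen_compl_singleton le_rfl
  have hc : ContinuousOn (fun z : ℝ × En n => (w z.1 * Real.exp (-z.1)) • fderiv ℝ F (Real.exp (-z.1) • z.2))
      (univ ×ˢ Metric.closedBall x₀ (‖x₀‖ / 2)) := by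
    refine ContinuousOn.smul (f := fun z : ℝ × En n => w z.1 * Real.exp (-z.1)) (Continuous.continuousOn (by fun_prop)) (hdF.comp (f := fun z : ℝ × En n => Real.exp (-z.1) • z.2) (Continuous.continuousOn (by fun_prop)) fun z (hz : z ∈ univ ×ˢ Metric.closedBall x₀ (‖x₀‖ / 2)) => hne z.1 (hball z.2 hz.2))
  obtain ⟨C, hC⟩ := ((isCompact_uIcc (a := (0 : ℝ)) (b := h)).prod (isCompact_closedBall x₀ (‖x₀‖ / 2)))
    |>.exists_bound_of_continuousOn (hc.mono (prod_mono (subset_univ _) subset_rfl))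
  have hcont : ∀ x ∈ Metric.closedBall x₀ (‖x₀‖ / 2),
      Continuous fun t => w t • F (Real.exp (-t) • x) := fun x hx =>
    hw.smul (hF.continuousOn.comp_continuous (by fun_prop) fun t => hne t (hball x hx))
  refine intervalIntegral.hasFDerivAt_integral_of_dominated_of_fderiv_le (𝕜 := ℝ)
    (F := fun x t => w t • F (Real.exp (-t) • x))
    (F' := fun x t => (w t * Real.exp (-t)) • fderiv ℝ F (Real.exp (-t) • x))
    (bound := fun _ => C) (Metric.closedBall_mem_nhds x₀ hr)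
    (eventually_of_mem (Metric.closedBall_mem_nhds x₀ hr) fun x hx =>
      (hcont x hx).aestronglyMeasurable)
    ((hcont x₀ (Metric.mem_closedBall_self hr.le)).intervalIntegrable 0 h) ?_
    (Eventually.of_forall fun t ht x hx => hC (t, x) ⟨uIoc_subset_uIcc ht, hx⟩)
    intervalIntegrable_const
    (Eventually.of_forall fun t _ x hx => ?_)
  · exact (hc.comp_continuous (f := fun t : ℝ => (t, x₀)) (by fun_prop)
      fun t => ⟨trivial, Metric.mem_closedBall_self hr.le⟩).aestronglyMeasurable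
  · have hd : HasFDerivAt F (fderiv ℝ F (Real.exp (-t) • x)) (Real.exp (-t) • x) :=
      ((hF.contDiffAt (isOpen_compl_singleton.mem_nhds (hne t (hball x hx)))).differentiableAt
        (by norm_num)).hasFDerivAt
    refine ((hd.comp x ((hasFDerivAt_id x).const_smul (Real.exp (-t)))).const_smul (w t)).congr_fderiv ?_
    ext y
    simp [smul_smul]

lemma rayInt_continuousOn {h : ℝ} {w : ℝ → ℝ} (hw : Continuous w) {F : En n → G}
    (hF : ContinuousOn F {0}ᶜ) : ContinuousOn (rayInt h w F) {0}ᶜ := by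
  rw [continuousOn_iff_continuous_domRestrict]
  exact intervalIntegral.continuous_parametric_intervalIntegral_of_continuous'
    (f := fun (x : ({0}ᶜ : Set (En n))) t => w t • F (Real.exp (-t) • (x : En n)))
    ((hw.comp continuous_snd).smul (hF.comp_continuous
      ((Real.continuous_exp.comp continuous_snd.neg).smul (continuous_subtype_val.comp continuous_fst))
      fun z => smul_ne_zero (Real.exp_pos _).ne' z.1.2)) 0 h

lemma rayInt_c1 [CompleteSpace G] {h : ℝ} {w : ℝ → ℝ} (hw : Continuous w) {F : En n → G}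
    (hF : ContDiffOn ℝ 1 F {0}ᶜ) : ContDiffOn ℝ 1 (rayInt h w F) {0}ᶜ := by
  rw [show (1 : WithTop ℕ∞) = 0 + 1 by simp, contDiffOn_succ_iff_fderiv_of_isOpen isOpen_compl_singleton]
  refine ⟨fun x hx => (rayInt_hasFDerivAt hw hF hx).differentiableAt.differentiableWithinAt,
    by simp, ?_⟩
  rw [contDiffOn_zero]
  refine (rayInt_continuousOn (h := h) (hw.mul (Real.continuous_exp.comp continuous_neg))
    (hF.continuousOn_fderiv_of_isOpen isOpen_compl_singleton le_rfl)).congr fun x hx => ?_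
  exact (rayInt_hasFDerivAt hw hF hx).fderiv

lemma rayInt_clm [CompleteSpace G] {G' : Type*} [NormedAddCommGroup G'] [NormedSpace ℝ G']
    [CompleteSpace G'] (L : G →L[ℝ] G') {h : ℝ} {w : ℝ → ℝ} (hw : Continuous w) {F : En n → G}
    (hF : ContinuousOn F {0}ᶜ) {x : En n} (hx : x ≠ 0) :
    L (rayInt h w F x) = rayInt h w (fun y => L (F y)) x := by
  have hI : IntervalIntegrable (fun t => w t • F (Real.exp (-t) • x)) volume 0 h :=
    (hw.smul (hF.comp_continuous (by fun_prop) fun t => smul_ne_zero (Real.exp_pos _).ne' hx)).intervalIntegrable 0 h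
  simp only [rayInt]
  rw [← L.intervalIntegral_comp_comm hI]
  simp

variable {f g : En n → ℝ}

lemma rayInt_c2 (hf : C2 f) {h : ℝ} {w : ℝ → ℝ} (hw : Continuous w) : C2 (rayInt h w f) := by
  have h1 : ContDiffOn ℝ 1 f {0}ᶜ := hf.of_le (by norm_num)
  show ContDiffOn ℝ (1 + 1) (rayInt h w f) {0}ᶜ
  rw [contDiffOn_succ_iff_fderiv_of_isOpen isOpen_compl_singleton]
  refine ⟨fun x hx => (rayInt_hasFDerivAt hw h1 hx).differentiableAt.differentiableWithinAt,
    by simp, ?_⟩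
  have hdf : ContDiffOn ℝ 1 (fderiv ℝ f) {0}ᶜ :=
    hf.fderiv_of_isOpen isOpen_compl_singleton (by norm_num)
  exact (rayInt_c1 (hw.mul (by fun_prop)) hdf).congr fun x hx => (rayInt_hasFDerivAt hw h1 hx).fderiv

lemma rayInt_lap (hf : C2 f) {h : ℝ} {w : ℝ → ℝ} (hw : Continuous w) {x : En n} (hx : x ≠ 0) :
    lap (rayInt h w f) x = rayInt h (fun t => w t * Real.exp (-t) * Real.exp (-t)) (lap f) x := by
  have h1 : ContDiffOn ℝ 1 f {0}ᶜ := hf.of_le (by norm_num)
  have hdf : ContDiffOn ℝ 1 (fderiv ℝ f) {0}ᶜ :=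
    hf.fderiv_of_isOpen isOpen_compl_singleton (by norm_num)
  have e : fderiv ℝ (rayInt h w f) =ᶠ[𝓝 x] rayInt h (fun t => w t * Real.exp (-t)) (fderiv ℝ f) :=
    eventually_of_mem (isOpen_compl_singleton.mem_nhds hx) fun y hy => (rayInt_hasFDerivAt hw h1 hy).fderiv
  have hes' : hes (rayInt h w f) x =
      rayInt h (fun t => w t * Real.exp (-t) * Real.exp (-t)) (fderiv ℝ (fderiv ℝ f)) x := by
    rw [hes, e.fderiv_eq]
    exact (rayInt_hasFDerivAt (hw.mul (by fun_prop)) hdf hx).fderiv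
  have hd2 : ContinuousOn (fderiv ℝ (fderiv ℝ f)) {0}ᶜ :=
    hdf.continuousOn_fderiv_of_isOpen isOpen_compl_singleton le_rfl
  set B := EuclideanSpace.basisFun (Fin n) ℝ
  let L : (En n →L[ℝ] En n →L[ℝ] ℝ) →L[ℝ] ℝ :=
    ∑ i, (ContinuousLinearMap.apply ℝ ℝ (B i)).comp (ContinuousLinearMap.apply ℝ (En n →L[ℝ] ℝ) (B i))
  have hL : ∀ H : En n →L[ℝ] En n →L[ℝ] ℝ, L H = ∑ i, H (B i) (B i) := fun H => by simp [L]
  have hlap : ∀ (φ : En n → ℝ) y, lap φ y = L (hes φ y) := fun φ y => (hL _).symm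
  rw [hlap, hes']
  refine (rayInt_clm (G := En n →L[ℝ] En n →L[ℝ] ℝ) (G' := ℝ) L (w := fun t => w t * Real.exp (-t) * Real.exp (-t)) (by fun_prop) hd2 hx).trans ?_
  simp only [rayInt, hlap, hes]

/-- A combination of two dilations. -/
lemma scale_c2 (hf : C2 f) (a : ℝ) {c : ℝ} (hc : c ≠ 0) : C2 fun x => a * f (c • x) :=
  contDiffOn_const.mul (hf.comp (contDiff_const_smul c).contDiffOn fun _ hx => smul_ne_zero hc hx)

lemma scale_fderiv (hf : C2 f) (a : ℝ) {c : ℝ} (hc : c ≠ 0) {x : En n} (hx : x ≠ 0) :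
    fderiv ℝ (fun y => a * f (c • y)) x = (a * c) • fderiv ℝ f (c • x) := by
  have h := ((hf.hasFDerivAt (smul_ne_zero hc hx)).comp x ((hasFDerivAt_id x).const_smul c)).const_mul a
  refine h.fderiv.trans ?_
  ext y
  simp [mul_assoc]

lemma scale_hes (hf : C2 f) (a : ℝ) {c : ℝ} (hc : c ≠ 0) {x : En n} (hx : x ≠ 0) :
    hes (fun y => a * f (c • y)) x = (a * c * c) • hes f (c • x) := by
  have e : fderiv ℝ (fun y => a * f (c • y)) =ᶠ[𝓝 x] fun y => (a * c) • fderiv ℝ f (c • y) :=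
    eventually_of_mem (isOpen_compl_singleton.mem_nhds hx) fun y hy => scale_fderiv hf a hc hy
  have h := ((hf.hasFDerivAt_fderiv (smul_ne_zero hc hx)).comp x
    ((hasFDerivAt_id x).const_smul c)).const_smul (a * c)
  rw [hes, e.fderiv_eq]
  refine h.fderiv.trans ?_
  ext y z
  simp [mul_assoc]

lemma scale_lap (hf : C2 f) (a : ℝ) {c : ℝ} (hc : c ≠ 0) {x : En n} (hx : x ≠ 0) :
    lap (fun y => a * f (c • y)) x = a * c ^ 2 * lap f (c • x) := by
  simp only [lap, scale_hes hf a hc hx, Finset.mul_sum]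
  exact Finset.sum_congr rfl fun i _ => by simp only [_root_.smul_apply, smul_eq_mul]; ring

lemma scale_tanLap (hf : C2 f) (a : ℝ) {c : ℝ} (hc : 0 < c) {x : En n} (hx : x ≠ 0) :
    tanLap (fun y => a * f (c • y)) x = a * tanLap f (c • x) := by
  simp only [tanLap, rd, scale_lap hf a hc.ne' hx, scale_hes hf a hc.ne' hx, scale_fderiv hf a hc.ne' hx,
    norm_smul, Real.norm_eq_abs, abs_of_pos hc]
  simp [map_smul]
  ring

lemma sub_hes (hf : C2 f) (hg : C2 g) {x : En n} (hx : x ≠ 0) :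
    hes (fun y => f y - g y) x = hes f x - hes g x := by
  have e : fderiv ℝ (fun y => f y - g y) =ᶠ[𝓝 x] fun y => fderiv ℝ f y - fderiv ℝ g y :=
    eventually_of_mem (isOpen_compl_singleton.mem_nhds hx) fun y hy =>
      ((hf.hasFDerivAt hy).sub (hg.hasFDerivAt hy)).fderiv
  rw [hes, e.fderiv_eq]
  exact ((hf.hasFDerivAt_fderiv hx).sub (hg.hasFDerivAt_fderiv hx)).fderiv

lemma add_hes (hf : C2 f) (hg : C2 g) {x : En n} (hx : x ≠ 0) :
    hes (fun y => f y + g y) x = hes f x + hes g x := by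
  have e : fderiv ℝ (fun y => f y + g y) =ᶠ[𝓝 x] fun y => fderiv ℝ f y + fderiv ℝ g y :=
    eventually_of_mem (isOpen_compl_singleton.mem_nhds hx) fun y hy =>
      ((hf.hasFDerivAt hy).add (hg.hasFDerivAt hy)).fderiv
  rw [hes, e.fderiv_eq]
  exact ((hf.hasFDerivAt_fderiv hx).add (hg.hasFDerivAt_fderiv hx)).fderiv

lemma sub_lap (hf : C2 f) (hg : C2 g) {x : En n} (hx : x ≠ 0) :
    lap (fun y => f y - g y) x = lap f x - lap g x := by
  simp [lap, sub_hes hf hg hx, Finset.sum_sub_distrib]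

lemma add_lap (hf : C2 f) (hg : C2 g) {x : En n} (hx : x ≠ 0) :
    lap (fun y => f y + g y) x = lap f x + lap g x := by
  simp [lap, add_hes hf hg hx, Finset.sum_add_distrib]

/-- The tangential test for a difference of two functions on two spheres. -/
lemma cT_pair_nonneg (hf : C2 f) (hg : C2 g) (k k' : ℝ) {s t : ℝ} {θ : En n} (hθ : θ ∈ sph n)
    (h : ∀ θ' ∈ sph n, cU k f s θ - cU k' g t θ ≤ cU k f s θ' - cU k' g t θ') :
    0 ≤ cT k f s θ - cT k' g t θ := by
  set e : En n → ℝ := fun y => Real.exp (k * s) * f (Real.exp s • y) with he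
  set e' : En n → ℝ := fun y => Real.exp (k' * t) * g (Real.exp t • y) with he'
  have hθ0 : θ ≠ 0 := by rintro rfl; simp [sph] at hθ
  have hC : C2 e := scale_c2 hf _ (Real.exp_pos _).ne'
  have hC' : C2 e' := scale_c2 hg _ (Real.exp_pos _).ne'
  have := tan_test (hC.sub hC') (a := 1) (b := 0) (r₁ := 1) (r₂ := 1) one_pos one_pos hθ
    (by simpa [he, he', cU, pt] using h)
  have e3 : tanLap (fun y => e y - e' y) θ = tanLap e θ - tanLap e' θ := by
    have hfd : fderiv ℝ (fun y => e y - e' y) θ = fderiv ℝ e θ - fderiv ℝ e' θ :=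
      ((hC.hasFDerivAt hθ0).sub (hC'.hasFDerivAt hθ0)).fderiv
    simp only [tanLap, rd, sub_lap hC hC' hθ0, sub_hes hC hC' hθ0, hfd]
    simp
    ring
  simp only [one_mul, zero_mul, one_smul] at this
  change 0 ≤ tanLap (fun y => e y - e' y) θ at this
  rw [e3, scale_tanLap hf _ (Real.exp_pos _) hθ0, scale_tanLap hg _ (Real.exp_pos _) hθ0] at this
  exact this

/-- The Laplacian of a power of the radius times a function. -/
lemma rpow_mul_c2 (hf : C2 f) (b : ℝ) : C2 fun x => ‖x‖ ^ b * f x :=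
  ContDiffOn.mul (fun x hx => ((contDiffAt_norm ℝ hx).rpow_const_of_ne (norm_ne_zero_iff.2 hx)).contDiffWithinAt) hf

lemma hasFDerivAt_norm_rpow' {b : ℝ} {x : En n} (hx : x ≠ 0) :
    HasFDerivAt (fun y : En n => ‖y‖ ^ b) ((b * ‖x‖ ^ (b - 2)) • innerSL ℝ x) x := by
  have h0 : HasDerivAt (fun r : ℝ => r ^ (b / 2)) (b / 2 * (‖x‖ ^ 2) ^ (b / 2 - 1)) (‖x‖ ^ 2) :=
    Real.hasDerivAt_rpow_const (Or.inl (pow_ne_zero 2 (norm_ne_zero_iff.2 hx)))
  have h1 := h0.comp_hasFDerivAt (f := fun y : En n => ‖y‖ ^ 2) x (hasStrictFDerivAt_norm_sq x).hasFDerivAt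
  have e : ∀ y : En n, ∀ c : ℝ, (‖y‖ ^ 2) ^ c = ‖y‖ ^ (2 * c) := fun y c => by
    rw [← Real.rpow_natCast_mul (norm_nonneg y)]; norm_num
  refine (h1.congr_of_eventuallyEq (Eventually.of_forall fun y => ?_)).congr_fderiv ?_
  · show ‖y‖ ^ b = (‖y‖ ^ 2) ^ (b / 2)
    rw [e]; ring_nf
  · ext y
    simp [e, show 2 * (b / 2 - 1) = b - 2 by ring]
    ring

lemma rpow_mul_lap (hf : C2 f) (b : ℝ) {x : En n} (hx : x ≠ 0) :
    lap (fun y => ‖y‖ ^ b * f y) x = ‖x‖ ^ b * lap f x + 2 * b * ‖x‖ ^ (b - 2) * rd f x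
      + b * (b + (n : ℝ) - 2) * ‖x‖ ^ (b - 2) * f x := by
  have e : fderiv ℝ (fun y => ‖y‖ ^ b * f y) =ᶠ[𝓝 x]
      fun y => ‖y‖ ^ b • fderiv ℝ f y + f y • ((b * ‖y‖ ^ (b - 2)) • innerSL ℝ y) :=
    eventually_of_mem (isOpen_compl_singleton.mem_nhds hx) fun y hy =>
      ((hasFDerivAt_norm_rpow' hy).mul (hf.hasFDerivAt hy)).fderiv
  have hinner : HasFDerivAt (fun y : En n => innerSL ℝ y) (innerSL ℝ (E := En n)) x :=
    (innerSL ℝ (E := En n)).hasFDerivAt
  have hd := ((hasFDerivAt_norm_rpow' (b := b) hx).smul (hf.hasFDerivAt_fderiv hx)).add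
    ((hf.hasFDerivAt hx).smul (((hasFDerivAt_norm_rpow' (b := b - 2) hx).const_mul b).smul hinner))
  simp only [lap, hes, e.fderiv_eq]
  erw [hd.fderiv]
  set B := EuclideanSpace.basisFun (Fin n) ℝ
  have hrep : ∑ i, ⟪x, B i⟫_ℝ • B i = x := by
    conv_rhs => rw [← B.sum_repr' x]
    exact Finset.sum_congr rfl fun i _ => by rw [real_inner_comm]
  have h1 : ∑ i, ⟪x, B i⟫_ℝ * fderiv ℝ f x (B i) = rd f x := by
    conv_rhs => rw [rd]; arg 2; rw [← hrep]
    simp [map_sum]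
  have h2 : ∑ i, ⟪x, B i⟫_ℝ * ⟪x, B i⟫_ℝ = ‖x‖ ^ 2 := by
    simpa [real_inner_comm x] using (B.sum_inner_mul_inner x x).trans (real_inner_self_eq_norm_sq x)
  have h3 : ∑ i, ⟪B i, B i⟫_ℝ = (n : ℝ) := by simp [real_inner_self_eq_norm_sq, B.orthonormal.1]
  have hp : ‖x‖ ^ (b - 2 - 2) * ‖x‖ ^ 2 = ‖x‖ ^ (b - 2) := by
    rw [← Real.rpow_natCast ‖x‖ 2, ← Real.rpow_add (norm_pos_iff.2 hx)]; norm_num
  simp only [ContinuousLinearMap.smulRight_apply, add_apply, smul_apply, innerSL_apply_apply,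
    smul_eq_mul]
  have hB : ∀ i, ⟪B i, B i⟫_ℝ = (1 : ℝ) := fun i => by
    rw [real_inner_self_eq_norm_sq, B.orthonormal.1 i, one_pow]
  simp only [Pi.smul_apply', hes, innerSL_apply_apply, smul_apply, smul_eq_mul]
  calc _ = ∑ i, (‖x‖ ^ b * fderiv ℝ (fderiv ℝ f) x (B i) (B i)
        + 2 * (b * ‖x‖ ^ (b - 2)) * (⟪x, B i⟫_ℝ * fderiv ℝ f x (B i))
        + f x * (b * ((b - 2) * ‖x‖ ^ (b - 2 - 2))) * (⟪x, B i⟫_ℝ * ⟪x, B i⟫_ℝ)
        + f x * (b * ‖x‖ ^ (b - 2)) * ⟪B i, B i⟫_ℝ) := Finset.sum_congr rfl fun i _ => by ring_nf; rfl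
    _ = _ := by
      simp only [Finset.sum_add_distrib, ← Finset.mul_sum, h1, h2, h3]
      rw [← hp]
      ring

lemma deriv_rayInt (hf : C2 f) {k h : ℝ} {θ : En n} (hθ : θ ∈ sph n) (s : ℝ) :
    cU k (rayInt h (fun t => Real.exp (-k * t)) f) s θ = ∫ t in (0 : ℝ)..h, cU k f (s - t) θ := by
  simp only [cU, rayInt, ← intervalIntegral.integral_const_mul]
  refine intervalIntegral.integral_congr fun t _ => ?_
  simp only [smul_eq_mul, pt, smul_smul, ← Real.exp_add, ← mul_assoc]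
  ring_nf

lemma cU1_rayInt (hf : C2 f) {k h : ℝ} {θ : En n} (hθ : θ ∈ sph n) (s : ℝ) :
    cU1 k (rayInt h (fun t => Real.exp (-k * t)) f) s θ = cU k f s θ - cU k f (s - h) θ := by
  have hc : Continuous fun σ => cU k f σ θ :=
    continuous_iff_continuousAt.2 fun σ => (hasDerivAt_cU hf k σ hθ).continuousAt
  have e : ∀ σ, cU k (rayInt h (fun t => Real.exp (-k * t)) f) σ θ =
      (∫ r in (0 : ℝ)..σ, cU k f r θ) - ∫ r in (0 : ℝ)..(σ - h), cU k f r θ := fun σ => by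
    rw [deriv_rayInt hf hθ, intervalIntegral.integral_comp_sub_left (fun r => cU k f r θ),
      intervalIntegral.integral_interval_sub_left (hc.intervalIntegrable _ _) (hc.intervalIntegrable _ _)]
    simp
  have h1 := (hc.integral_hasStrictDerivAt 0 s).hasDerivAt
  have h2 := (hc.integral_hasStrictDerivAt 0 (s - h)).hasDerivAt.comp_sub_const s h
  refine (hasDerivAt_cU (rayInt_c2 hf (by fun_prop)) k s hθ).unique ?_
  exact (h1.sub h2).congr_of_eventuallyEq (Eventually.of_forall e)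

end Vale.Agent.P100.Fourth
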