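import Vale.Agent.P100.Fourth.Mean

/-!
Decay of ball averages of a positive solution.
-/

open Filter Topology Set MeasureTheory
open scoped InnerProductSpace

namespace Vale.Agent.P100.Fourth

variable {n : ℕ} {f : En n → ℝ}

lemma pt_log {x : En n} (hx : x ≠ 0) :
    ‖x‖⁻¹ • x ∈ sph n ∧ pt (Real.log ‖x‖) (‖x‖⁻¹ • x) = x := by
  have h : 0 < ‖x‖ := norm_pos_iff.2 hx
  refine ⟨?_, ?_⟩
  · simp [sph, norm_smul, inv_mul_cancel₀ h.ne']
  · rw [pt, Real.exp_log h, smul_smul, mul_inv_cancel₀ h.ne', one_smul]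

/-- A lower bound on the source gives a lower bound on the function. -/
lemma source_step (hn : 2 ≤ n) (hf : C2 f) (hpos : ∀ x, 0 < f x) {M T : ℝ} (hM : 0 < M)
    (hsrc : ∀ θ ∈ sph n, ∀ t ∈ Ioo (T - 1) (T + 1), Real.exp (2 * t) * lap f (pt t θ) ≤ -M) :
    ∀ θ ∈ sph n, M / (3 * ((n : ℝ) - 1)) ≤ f (pt T θ) := by
  intro θ hθ
  set N := (n : ℝ) - 2 with hN
  have hN0 : 0 ≤ N := by
    have : (2 : ℝ) ≤ n := by exact_mod_cast hn
    linarith
  rw [show (n : ℝ) - 1 = 1 + N by rw [hN]; ring]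
  set ε := M / (3 * (1 + N)) with hεd
  have hε : 0 < ε := by positivity
  have hεM : 3 * (1 + N) * ε = M := by rw [hεd]; field_simp
  let φ : ℝ → ℝ := fun t => ε * (1 - (t - T) ^ 2)
  have hφ : ∀ t, HasDerivAt φ (-2 * ε * (t - T)) t := fun t => by
    refine (((((hasDerivAt_id t).sub_const T).pow 2).const_sub 1).const_mul ε).congr_deriv ?_
    simp; ring
  have hφ' : ∀ t, HasDerivAt (fun t => -2 * ε * (t - T)) (-2 * ε) t := fun t => by
    refine (((hasDerivAt_id t).sub_const T).const_mul (-2 * ε)).congr_deriv ?_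
    simp
  have := cU_slab hf (k := 0) (c := N) (lo := T - 1) (hi := T + 1) hφ hφ'
    (fun θ' hθ' => by constructor <;> rw [cU_zero] <;> simpa [φ] using (hpos _).le)
    (fun θ' hθ' t ht _ => by
      rw [hN, cyl_eq_zero t hθ', ← hN]
      have h1 := hsrc θ' hθ' t ht
      have h2 : N * (-2 * ε * (t - T)) ≥ -(2 * N * ε) := by
        nlinarith [mul_nonneg (mul_nonneg hN0 hε.le) (show 0 ≤ 1 - (t - T) by linarith [ht.2])]
      nlinarith [mul_nonneg hN0 hε.le]) θ hθ T ⟨by linarith, by linarith⟩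
  simpa [φ, cU_zero] using this

/-- Propagation of a lower bound outwards. -/
lemma outer_step (hn : 3 ≤ n) (hf : C2 f) (hpos : ∀ x, 0 < f x)
    (hsup : ∀ θ ∈ sph n, ∀ s, lap f (pt s θ) < 0) {m S : ℝ} (hm : 0 < m)
    (h : ∀ θ ∈ sph n, m ≤ f (pt S θ)) {t : ℝ} (ht : S ≤ t) :
    ∀ θ ∈ sph n, m * (1 - Real.exp (-((n : ℝ) - 2))) * Real.exp (-((n : ℝ) - 2) * (t - S))
      ≤ f (pt t θ) := by
  intro θ hθ
  set N := (n : ℝ) - 2 with hN
  have hN0 : 0 < N := by
    have : (3 : ℝ) ≤ n := by exact_mod_cast hn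
    linarith
  let φ : ℝ → ℝ := fun s => m * (Real.exp (-N * (s - S)) - Real.exp (-N * (t + 1 - S)))
  have hφ : ∀ s, HasDerivAt φ (-N * m * Real.exp (-N * (s - S))) s := fun s => by
    refine (((((hasDerivAt_id s).sub_const S).const_mul (-N)).exp.sub_const _).const_mul m
      ).congr_deriv ?_
    simp; ring
  have hφ' : ∀ s, HasDerivAt (fun r => -N * m * Real.exp (-N * (r - S)))
      (N ^ 2 * m * Real.exp (-N * (s - S))) s := fun s => by
    refine ((((hasDerivAt_id s).sub_const S).const_mul (-N)).exp.const_mul (-N * m)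
      ).congr_deriv ?_
    simp; ring
  have := cU_slab hf (k := 0) (c := N) (lo := S) (hi := t + 1) hφ hφ'
    (fun θ' hθ' => by
      refine ⟨?_, ?_⟩ <;> rw [cU_zero]
      · refine le_trans ?_ (h θ' hθ')
        simp only [φ, sub_self, mul_zero, Real.exp_zero]
        nlinarith [Real.exp_pos (-N * (t + 1 - S))]
      · simpa [φ] using (hpos _).le)
    (fun θ' hθ' s _ _ => by
      rw [hN, cyl_eq_zero s hθ', ← hN]
      have h1 := mul_neg_of_pos_of_neg (Real.exp_pos (2 * s)) (hsup θ' hθ' s)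
      nlinarith) θ hθ t ⟨ht, by linarith⟩
  rw [cU_zero] at this
  refine le_of_eq_of_le ?_ this
  have e : Real.exp (-N * (t + 1 - S)) = Real.exp (-N * (t - S)) * Real.exp (-N) := by
    rw [← Real.exp_add]; ring_nf
  simp only [φ, e]; ring

/-- Propagation of a lower bound inwards. -/
lemma inner_step (hn : 2 ≤ n) (hf : C2 f) (hpos : ∀ x, 0 < f x)
    (hsup : ∀ θ ∈ sph n, ∀ s, lap f (pt s θ) < 0) {m T : ℝ} (hm : 0 < m) (hT : 0 < T)
    (h : ∀ θ ∈ sph n, m ≤ f (pt T θ)) : ∀ θ ∈ sph n, m / 2 ≤ f (pt 0 θ) := by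
  intro θ hθ
  set η := m / (2 * T) with hη
  have hηT : η * T = m / 2 := by rw [hη]; field_simp
  let φ : ℝ → ℝ := fun t => m + η * (t - T)
  have hφ : ∀ t, HasDerivAt φ η t := fun t => by
    simpa [φ] using (((hasDerivAt_id t).sub_const T).const_mul η).const_add m
  have hN0 : (0 : ℝ) ≤ (n : ℝ) - 2 := by
    have : (2 : ℝ) ≤ n := by exact_mod_cast hn
    linarith
  have := cU_slab hf (k := 0) (c := (n : ℝ) - 2) (lo := -T) (hi := T) hφ
    (fun t => hasDerivAt_const t η)
    (fun θ' hθ' => by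
      refine ⟨?_, ?_⟩ <;> rw [cU_zero]
      · refine le_trans (le_of_eq ?_) (hpos (pt (-T) θ')).le
        simp only [φ]; linarith
      · simpa [φ] using h θ' hθ')
    (fun θ' hθ' t _ _ => by
      rw [cyl_eq_zero t hθ']
      have h1 := mul_neg_of_pos_of_neg (Real.exp_pos (2 * t)) (hsup θ' hθ' t)
      have h2 : 0 ≤ η := by rw [hη]; positivity
      nlinarith) θ hθ 0 ⟨by linarith, by linarith⟩
  rw [cU_zero] at this
  simp only [φ] at this
  linarith

variable {u v : En n → ℝ} {p A B : ℝ}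

/-- The minimum of `v` over spheres tends to zero. -/
lemma exists_small (hn : 3 ≤ n) (hp : 0 < p) (hA : -2 < A) (hB : -2 < B) (hu : C2 u) (hv : C2 v)
    (hup : ∀ x, 0 < u x) (hvp : ∀ x, 0 < v x)
    (h1 : ∀ θ ∈ sph n, ∀ s, lap u (pt s θ) = -(Real.exp (A * s) * v (pt s θ) ^ p))
    (h2 : ∀ θ ∈ sph n, ∀ s, lap v (pt s θ) = -(Real.exp (B * s) * u (pt s θ)))
    {ε : ℝ} (hε : 0 < ε) : ∃ S₀, ∀ S ≥ S₀, ∃ θ ∈ sph n, v (pt S θ) < ε := by
  set N := (n : ℝ) - 2 with hN
  have hN0 : 0 < N := by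
    have : (3 : ℝ) ≤ n := by exact_mod_cast hn
    linarith
  have hsup : ∀ θ ∈ sph n, ∀ s, lap v (pt s θ) < 0 := fun θ hθ s => by
    rw [h2 θ hθ s, neg_lt_zero]; exact mul_pos (Real.exp_pos _) (hup _)
  obtain ⟨θ₀, hθ₀⟩ := sph_nonempty (show 0 < n by omega)
  have he : 0 < 1 - Real.exp (-N) := sub_pos.2 (Real.exp_lt_one_iff.2 (by linarith))
  set a := ε * (1 - Real.exp (-N)) * Real.exp (-N * 4) with had
  have ha : 0 < a := by positivity
  set D := 3 * ((n : ℝ) - 1) with hDd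
  have hD : 0 < D := by rw [hDd]; linarith
  set c := a ^ p / D / D / 2 with hcd
  have hc : 0 < c := by positivity
  have ht : Tendsto (fun S => c * Real.exp ((4 + A + B) * S)) atTop atTop :=
    (Real.tendsto_exp_atTop.comp (tendsto_id.const_mul_atTop (by linarith))).const_mul_atTop hc
  obtain ⟨R, hR⟩ := eventually_atTop.1 (ht.eventually_gt_atTop (v (pt 0 θ₀)))
  refine ⟨max R 0, fun S hS => ?_⟩
  by_contra hcon
  push Not at hcon
  have hS0 : 0 ≤ S := le_trans (le_max_right _ _) hS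
  have hv1 : ∀ θ ∈ sph n, ∀ t, S ≤ t → t ≤ S + 4 → a ≤ v (pt t θ) := fun θ hθ t h h' => by
    refine le_trans ?_ (outer_step hn hv hvp hsup hε hcon h θ hθ)
    rw [had, ← hN]
    exact mul_le_mul_of_nonneg_left (Real.exp_le_exp.2 (by nlinarith)) (by positivity)
  have hu1 : ∀ θ ∈ sph n, ∀ T, S + 1 ≤ T → T ≤ S + 3 →
      a ^ p * Real.exp ((2 + A) * S) / D ≤ u (pt T θ) := fun θ hθ T h h' => by
    refine source_step (by omega) hu hup (by positivity) (fun θ' hθ' t htt => ?_) θ hθ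
    rw [h1 θ' hθ' t, mul_neg, neg_le_neg_iff, ← mul_assoc, ← Real.exp_add, mul_comm (a ^ p)]
    refine mul_le_mul (Real.exp_le_exp.2 ?_)
      (Real.rpow_le_rpow ha.le (hv1 θ' hθ' t (by linarith [htt.1]) (by linarith [htt.2])) hp.le)
      (by positivity) (Real.exp_pos _).le
    have : (2 + A) * S ≤ (2 + A) * t := by gcongr <;> linarith [htt.1]
    linarith
  have hv2 : ∀ θ ∈ sph n,
      a ^ p * Real.exp ((2 + A) * S) / D * Real.exp ((2 + B) * S) / D ≤ v (pt (S + 2) θ) := fun θ hθ => by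
    refine source_step (by omega) hv hvp (by positivity) (fun θ' hθ' t htt => ?_) θ hθ
    rw [h2 θ' hθ' t, mul_neg, neg_le_neg_iff, ← mul_assoc, ← Real.exp_add,
      mul_comm _ (Real.exp ((2 + B) * S))]
    refine mul_le_mul (Real.exp_le_exp.2 ?_) (hu1 θ' hθ' t (by linarith [htt.1]) (by linarith [htt.2]))
      (by positivity) (Real.exp_pos _).le
    have : (2 + B) * S ≤ (2 + B) * t := by gcongr <;> linarith [htt.1]
    linarith
  have h3 := inner_step (by omega) hv hvp hsup (by positivity) (by linarith) hv2 θ₀ hθ₀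
  have h4 := hR S (le_trans (le_max_left _ _) hS)
  have e : c * Real.exp ((4 + A + B) * S) =
      a ^ p * Real.exp ((2 + A) * S) / D * Real.exp ((2 + B) * S) / D / 2 := by
    rw [show (4 + A + B) * S = (2 + A) * S + (2 + B) * S by ring, Real.exp_add, hcd]; ring
  linarith

/-- A lower bound on a ball spreads to the whole space. -/
lemma spread (hn : 3 ≤ n) (hf : C2 f) (hpos : ∀ x, 0 < f x)
    (hlap : ∀ x, x ≠ 0 → lap f x < 0) {y : En n} {r a : ℝ} (hr : 0 < r) (hry : r < ‖y‖)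
    (ha : 0 < a) (hball : ∀ w, ‖w - y‖ ≤ r → a ≤ f w) {z : En n} (hz : r ≤ ‖z - y‖) (hz0 : z ≠ 0) :
    a * (r / ‖z - y‖) ^ ((n : ℝ) - 2) ≤ f z := by
  set N := (n : ℝ) - 2 with hN
  have hN0 : 0 < N := by
    have : (3 : ℝ) ≤ n := by exact_mod_cast hn
    linarith
  set ρ : En n → ℝ := fun x => ‖x‖ ^ (-N) * 1 with hρ
  have hρC : C2 ρ := rpow_mul_c2 contDiffOn_const (-N)
  have hρlap : ∀ x : En n, x ≠ 0 → lap ρ x = 0 := fun x hx => by
    rw [hρ, rpow_mul_lap (f := fun _ => (1 : ℝ)) contDiffOn_const (-N) hx]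
    have e1 : lap (fun _ : En n => (1 : ℝ)) x = 0 := by simp [lap, hes]
    rw [e1, show -N + (n : ℝ) - 2 = 0 by rw [hN]; ring]
    simp [rd]
  have hρ' : ∀ x, ρ x = ‖x‖ ^ (-N) := fun x => mul_one _
  have hzy : 0 < ‖z - y‖ := lt_of_lt_of_le hr hz
  have htarget : a * r ^ N * ρ (z - y) = a * (r / ‖z - y‖) ^ N := by
    rw [hρ', Real.div_rpow hr.le hzy.le, Real.rpow_neg hzy.le, mul_assoc, ← div_eq_mul_inv]
  rw [← htarget]
  refine le_of_forall_pos_le_add fun ε₀ hε₀ => ?_
  set ε := ε₀ / (ρ z + 1) with hεd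
  have hρz : 0 ≤ ρ z := by rw [hρ']; positivity
  have hε : 0 < ε := by positivity
  have hεe : ε * (ρ z + 1) = ε₀ := div_mul_cancel₀ _ (by linarith)
  set δ := min ‖z‖ ((ε / a) ^ (1 / N)) with hδd
  have hδ : 0 < δ := lt_min (norm_pos_iff.2 hz0) (Real.rpow_pos_of_pos (by positivity) _)
  set R := max ‖z‖ (‖y‖ + r * (a / ε) ^ (1 / N)) with hRd
  have hny : 0 < ‖y‖ := hr.trans hry
  let g : En n → ℝ := fun w => f w - a * r ^ N * ρ (w - y) + ε * ρ w + ε
  let K : Set (En n) := {w | δ ≤ ‖w‖ ∧ ‖w‖ ≤ R ∧ r ≤ ‖w - y‖}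
  have hne : ∀ w ∈ K, w ≠ 0 ∧ w - y ≠ 0 := fun w hw =>
    ⟨norm_pos_iff.1 (lt_of_lt_of_le hδ hw.1), norm_pos_iff.1 (lt_of_lt_of_le hr hw.2.2)⟩
  have hKc : IsCompact K := by
    refine (isCompact_closedBall (0 : En n) R).of_isClosed_subset ?_ fun w hw => by simpa using hw.2.1
    exact (isClosed_le continuous_const continuous_norm).inter
      ((isClosed_le continuous_norm continuous_const).inter (isClosed_le continuous_const (continuous_norm.comp (continuous_id.sub continuous_const))))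
  have hgc : ContinuousOn g K := by
    refine (((hf.continuousOn.mono fun w hw => (hne w hw).1).sub
      ((hρC.continuousOn.comp (f := fun w => w - y) (Continuous.continuousOn (by fun_prop))
        fun w hw => (hne w hw).2).const_mul (a * r ^ N))).add
      ((hρC.continuousOn.mono fun w hw => (hne w hw).1).const_mul ε)).add continuousOn_const
  have hzK : z ∈ K := ⟨min_le_left _ _, le_max_left _ _, hz⟩
  obtain ⟨w, hw, hmin⟩ := hKc.exists_isMinOn ⟨z, hzK⟩ hgc
  have hgw : 0 ≤ g w := by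
    have hrN : 0 < r ^ N := Real.rpow_pos_of_pos hr N
    have hbd : a * r ^ N * ρ (w - y) ≤ a := by
      rw [hρ', mul_assoc]
      refine mul_le_of_le_one_right ha.le ?_
      rw [Real.rpow_neg (norm_nonneg _), ← div_eq_mul_inv, div_le_one (Real.rpow_pos_of_pos
        (lt_of_lt_of_le hr hw.2.2) N)]
      exact Real.rpow_le_rpow hr.le hw.2.2 hN0.le
    have hρw : 0 ≤ ε * ρ w := mul_nonneg hε.le (by rw [hρ']; positivity)
    rcases hw.2.2.eq_or_lt with h | h
    · have := hball w h.ge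
      simp only [g]; linarith
    rcases hw.1.eq_or_lt with h' | h'
    · have : a ≤ ε * ρ w := by
        rw [hρ', ← h', Real.rpow_neg hδ.le, ← div_eq_mul_inv,
          le_div_iff₀ (Real.rpow_pos_of_pos hδ N), mul_comm]
        refine (le_div_iff₀ ha).1 ?_
        calc δ ^ N ≤ ((ε / a) ^ (1 / N)) ^ N := Real.rpow_le_rpow hδ.le (min_le_right _ _) hN0.le
          _ = ε / a := by
            rw [← Real.rpow_mul (by positivity), one_div_mul_cancel hN0.ne', Real.rpow_one]
      have := hpos w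
      simp only [g]; linarith
    rcases hw.2.1.eq_or_lt with h'' | h''
    · have hX : r * (a / ε) ^ (1 / N) ≤ ‖w - y‖ := by
        have := norm_sub_norm_le w y
        have := le_max_right ‖z‖ (‖y‖ + r * (a / ε) ^ (1 / N))
        rw [← hRd, ← h''] at this
        linarith
      have : a * r ^ N * ρ (w - y) ≤ ε := by
        rw [hρ', Real.rpow_neg (norm_nonneg _), ← div_eq_mul_inv, div_le_iff₀ (Real.rpow_pos_of_pos
          (lt_of_lt_of_le hr hw.2.2) N)]
        have h5 := Real.rpow_le_rpow (by positivity) hX hN0.le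
        rw [Real.mul_rpow hr.le (by positivity), ← Real.rpow_mul (by positivity),
          one_div_mul_cancel hN0.ne', Real.rpow_one] at h5
        calc a * r ^ N = ε * (r ^ N * (a / ε)) := by field_simp
          _ ≤ ε * ‖w - y‖ ^ N := mul_le_mul_of_nonneg_left h5 hε.le
      have := hpos w
      simp only [g]; linarith
    exfalso
    have key : ∀ i, 0 ≤ hes f w (EuclideanSpace.basisFun (Fin n) ℝ i) (EuclideanSpace.basisFun (Fin n) ℝ i)
        - a * r ^ N * hes ρ (w - y) (EuclideanSpace.basisFun (Fin n) ℝ i) (EuclideanSpace.basisFun (Fin n) ℝ i)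
        + ε * hes ρ w (EuclideanSpace.basisFun (Fin n) ℝ i) (EuclideanSpace.basisFun (Fin n) ℝ i) := by
      intro i
      set e := EuclideanSpace.basisFun (Fin n) ℝ i
      have hc : ∀ (x : En n) τ, HasDerivAt (fun s : ℝ => x + s • e) e τ := fun x τ => by
        simpa using ((hasDerivAt_id τ).smul_const e).const_add x
      have hcont : Continuous fun s : ℝ => w + s • e := by fun_prop
      have hmem : ∀ᶠ s in 𝓝 (0 : ℝ), w + s • e ∈ K := by
        have h1 : ∀ᶠ s in 𝓝 (0 : ℝ), δ < ‖w + s • e‖ :=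
          (continuous_norm.comp hcont).continuousAt.eventually (lt_mem_nhds (by simpa using h'))
        have h2 : ∀ᶠ s in 𝓝 (0 : ℝ), ‖w + s • e‖ < R :=
          (continuous_norm.comp hcont).continuousAt.eventually (gt_mem_nhds (by simpa using h''))
        have h3 : ∀ᶠ s in 𝓝 (0 : ℝ), r < ‖w + s • e - y‖ :=
          (show Continuous fun s : ℝ => ‖w + s • e - y‖ by fun_prop).continuousAt.eventually
            (lt_mem_nhds (by simpa using h))
        filter_upwards [h1, h2, h3] with s a1 a2 a3 using ⟨a1.le, a2.le, a3.le⟩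
      have hd1 : ∀ᶠ s in 𝓝 (0 : ℝ), HasDerivAt (fun τ => g (w + τ • e))
          (fderiv ℝ f (w + s • e) e - a * r ^ N * fderiv ℝ ρ (w - y + s • e) e
            + ε * fderiv ℝ ρ (w + s • e) e) s := by
        filter_upwards [hmem] with s hs
        obtain ⟨n1, n2⟩ := hne _ hs
        rw [add_sub_right_comm] at n2
        refine ((((hf.hasDerivAt_comp (hc w s) n1).sub
          ((hρC.hasDerivAt_comp (hc (w - y) s) n2).const_mul (a * r ^ N))).add
          ((hρC.hasDerivAt_comp (hc w s) n1).const_mul ε)).add_const ε).congr_of_eventuallyEq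
          (Eventually.of_forall fun τ => by simp [g, add_sub_right_comm])
      obtain ⟨n1, n2⟩ := hne w hw
      have hd2 : HasDerivAt (fun s : ℝ => fderiv ℝ f (w + s • e) e
            - a * r ^ N * fderiv ℝ ρ (w - y + s • e) e + ε * fderiv ℝ ρ (w + s • e) e)
          (hes f w e e - a * r ^ N * hes ρ (w - y) e e + ε * hes ρ w e e) 0 := by
        have ce := hasDerivAt_const (0 : ℝ) e
        refine (((hf.hasDerivAt_comp2 (hc w 0) ce (by simpa using n1)).sub
          ((hρC.hasDerivAt_comp2 (hc (w - y) 0) ce (by simpa using n2)).const_mul (a * r ^ N))).add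
          ((hρC.hasDerivAt_comp2 (hc w 0) ce (by simpa using n1)).const_mul ε)).congr_deriv ?_
        simp
      refine second_deriv_nonneg hd1 hd2 ?_
      filter_upwards [hmem] with s hs
      simpa using hmin hs
    have := Finset.sum_nonneg fun i (_ : i ∈ Finset.univ) => key i
    rw [Finset.sum_add_distrib, Finset.sum_sub_distrib, ← Finset.mul_sum, ← Finset.mul_sum] at this
    change 0 ≤ lap f w - a * r ^ N * lap ρ (w - y) + ε * lap ρ w at this
    obtain ⟨n1, n2⟩ := hne w hw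
    rw [hρlap _ n1, hρlap _ n2] at this
    linarith [hlap w n1]
  have hgz : g w ≤ g z := hmin hzK
  simp only [g] at hgz hgw
  nlinarith

/-- Ball averages of `v` tend to zero. -/
lemma avg_small (hn : 3 ≤ n) (hp : 0 < p) (hA : -2 < A) (hB : -2 < B) (hu : C2 u) (hv : C2 v)
    (hup : ∀ x, 0 < u x) (hvp : ∀ x, 0 < v x)
    (h1 : ∀ θ ∈ sph n, ∀ s, lap u (pt s θ) = -(Real.exp (A * s) * v (pt s θ) ^ p))
    (h2 : ∀ θ ∈ sph n, ∀ s, lap v (pt s θ) = -(Real.exp (B * s) * u (pt s θ)))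
    {ε : ℝ} (hε : 0 < ε) : ∃ R > 0, ∀ y : En n, R ≤ ‖y‖ → avg v y (‖y‖ / 16) ≤ ε := by
  have hlap : ∀ x : En n, x ≠ 0 → lap v x < 0 := fun x hx => by
    obtain ⟨hθ, he⟩ := pt_log hx
    rw [← he, h2 _ hθ, neg_lt_zero]
    exact mul_pos (Real.exp_pos _) (hup _)
  set κ := cst n * (1 / 32 : ℝ) ^ ((n : ℝ) - 2) with hκd
  have hκ : 0 < κ := mul_pos cst_pos (Real.rpow_pos_of_pos (by norm_num) _)
  obtain ⟨S₀, hS⟩ := exists_small hn hp hA hB hu hv hup hvp h1 h2 (mul_pos hε hκ)
  refine ⟨Real.exp S₀, Real.exp_pos _, fun y hy => ?_⟩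
  have hy0 : 0 < ‖y‖ := lt_of_lt_of_le (Real.exp_pos _) hy
  by_contra hcon
  push Not at hcon
  set r := ‖y‖ / 16 with hrd
  have hr : 0 < r := by positivity
  have hry : r < ‖y‖ := by linarith
  set a := cst n * avg v y r with had
  have ha : 0 < a := mul_pos cst_pos (hε.trans hcon)
  have hball : ∀ w, ‖w - y‖ ≤ r → a ≤ v w := fun w hw =>
    avg_harnack hv (fun x hx => (hlap x hx).le) (fun x => (hvp x).le) hr hry (by
      linarith [norm_sub_norm_le y w, norm_sub_rev y w]) hw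
  obtain ⟨θ, hθ, hsmall⟩ := hS (Real.log ‖y‖) (by
    rw [ge_iff_le, ← Real.log_exp S₀]; exact Real.log_le_log (Real.exp_pos _) hy)
  set z := pt (Real.log ‖y‖) θ
  have hz : ‖z‖ = ‖y‖ := by rw [norm_pt hθ, Real.exp_log hy0]
  have hzy : ‖z - y‖ ≤ 32 * r := by linarith [norm_sub_le z y]
  have h132 : (1 / 32 : ℝ) ^ ((n : ℝ) - 2) ≤ 1 := by
    refine Real.rpow_le_one (by norm_num) (by norm_num) ?_
    have : (3 : ℝ) ≤ n := by exact_mod_cast hn
    linarith
  have hkey : a * (1 / 32 : ℝ) ^ ((n : ℝ) - 2) ≤ v z := by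
    rcases le_or_gt ‖z - y‖ r with h | h
    · exact (mul_le_of_le_one_right ha.le h132).trans (hball z h)
    · refine le_trans (mul_le_mul_of_nonneg_left (Real.rpow_le_rpow (by norm_num) ?_ ?_) ha.le)
        (spread hn hv hvp hlap hr hry ha hball h.le (pt_ne_zero hθ _))
      · rw [le_div_iff₀ (hr.trans h)]; linarith
      · have : (3 : ℝ) ≤ n := by exact_mod_cast hn
        linarith
  have h5 : κ * ε < κ * avg v y r := mul_lt_mul_of_pos_left hcon hκ
  have h6 : κ * avg v y r = a * (1 / 32 : ℝ) ^ ((n : ℝ) - 2) := by rw [had, hκd]; ring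
  linarith

/-- A superharmonic function bounded below by a multiple of a dilate of `v` is asymptotically
nonnegative. -/
lemma lower_at_infty (hn : 3 ≤ n) (hp : 0 < p) (hA : -2 < A) (hB : -2 < B) (hu : C2 u) (hv : C2 v)
    (hup : ∀ x, 0 < u x) (hvp : ∀ x, 0 < v x)
    (h1 : ∀ θ ∈ sph n, ∀ s, lap u (pt s θ) = -(Real.exp (A * s) * v (pt s θ) ^ p))
    (h2 : ∀ θ ∈ sph n, ∀ s, lap v (pt s θ) = -(Real.exp (B * s) * u (pt s θ)))
    (hf : C2 f) (hflap : ∀ x, x ≠ 0 → lap f x ≤ 0) {a c : ℝ} (ha : 0 ≤ a) (hc : 0 < c)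
    (hbound : ∀ x, x ≠ 0 → -(a * v (c • x)) ≤ f x) {ε : ℝ} (hε : 0 < ε) :
    ∃ R > 0, ∀ x : En n, R ≤ ‖x‖ → -ε ≤ f x := by
  obtain ⟨R, hR, hRb⟩ := avg_small hn hp hA hB hu hv hup hvp h1 h2
    (show 0 < mass n * ε / (a + 1) from div_pos (mul_pos mass_pos hε) (by linarith))
  refine ⟨R / c, div_pos hR hc, fun x hx => ?_⟩
  rw [div_le_iff₀ hc] at hx
  have hcx : ‖c • x‖ = c * ‖x‖ := by rw [norm_smul, Real.norm_eq_abs, abs_of_pos hc]
  have hx0 : 0 < ‖x‖ := by
    by_contra h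
    push Not at h
    nlinarith
  set r := ‖x‖ / 16 with hrd
  have hr : |r| < ‖x‖ := by rw [abs_of_pos (by positivity)]; linarith
  have h3 := hRb (c • x) (by rw [hcx, mul_comm]; exact hx)
  rw [show ‖c • x‖ / 16 = c * r by rw [hcx, hrd]; ring] at h3
  have hw : C2 fun y => a * v (c • y) := scale_c2 hv a hc.ne'
  have hle : -avg (fun y => a * v (c • y)) x r ≤ avg f x r := by
    rw [avg, avg, ← integral_neg]
    refine integral_mono (avg_integrable hw.continuousOn hr).neg (avg_integrable hf.continuousOn hr)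
      fun z => ?_
    rcases eq_or_ne (x + r • z) 0 with h | h
    · simp [eta_zero_outside (shifted_norm hr h).le]
    · show -(eta z * (a * v (c • (x + r • z)))) ≤ eta z * f (x + r • z)
      have := mul_le_mul_of_nonneg_left (hbound _ h) (eta_nonneg z)
      linarith
  rw [avg_scale] at hle
  have h4 := avg_le hf hflap (y := x) (show 0 ≤ r by positivity) (by linarith)
  have h5 : a * avg v (c • x) (c * r) ≤ mass n * ε := by
    refine (mul_le_mul_of_nonneg_left h3 ha).trans ?_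
    rw [← mul_div_assoc, div_le_iff₀ (by linarith)]
    nlinarith [mul_pos (mass_pos (n := n)) hε]
  exact le_of_mul_le_mul_left (a := mass n) (by linarith) mass_pos

end Vale.Agent.P100.Fourth
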