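import Vale.Agent.P100.Fourth.Planes

/-!
No positive entire solution when one of the exponents is one.
-/

open Filter Topology Set
open scoped InnerProductSpace Laplacian

namespace Vale.Agent.P100.Fourth

variable {n : ℕ}

lemma no_solution_one (hn : 2 ≤ n) {p A B : ℝ} (hp : 0 < p)
    (hsub : (n : ℝ) - 2 < ((n : ℝ) + A) / (p + 1) + ((n : ℝ) + B) / (1 + 1)) :
    ¬ ∃ u v : En n → ℝ, C2 u ∧ C2 v ∧ Continuous u ∧ Continuous v ∧
      (∀ x, 0 < u x) ∧ (∀ x, 0 < v x) ∧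
      ∀ x, x ≠ 0 → -(Δ u x) = ‖x‖ ^ A * v x ^ p ∧ -(Δ v x) = ‖x‖ ^ B * u x ^ (1 : ℝ) := by
  rintro ⟨u, v, hu, hv, huc, hvc, hup, hvp, heq⟩
  have known : (n = 2 ∨ A ≤ -2 ∨ B ≤ -2 ∨ p * 1 ≤ 1 ∨
      ((n : ℝ) - 2) * (p * 1 - 1) < 2 + A + p * (2 + B) ∨
      ((n : ℝ) - 2) * (p * 1 - 1) < 2 + B + 1 * (2 + A) ∨
      (((n : ℝ) - 2) / 2 * (p * 1 - 1) < 2 + A + p * (2 + B) ∧
        ((n : ℝ) - 2) / 2 * (p * 1 - 1) < 2 + B + 1 * (2 + A)) ∨
      (p = 1 ∧ A = B ∧ (n : ℝ) - 2 < ((n : ℝ) + A) / (p + 1) + ((n : ℝ) + B) / (1 + 1))) → False :=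
    fun h => Results.P100.LiouvilleRegion.result n hn p 1 A B hp one_pos h
      ⟨u, v, hu, hv, huc, hvc, hup, hvp, heq⟩
  have hn3 : 3 ≤ n := by
    by_contra h
    exact known (Or.inl (by omega))
  have hA : -2 < A := lt_of_not_ge fun h => known (Or.inr (Or.inl h))
  have hB : -2 < B := lt_of_not_ge fun h => known (Or.inr (Or.inr (Or.inl h)))
  have hp1 : 1 < p := lt_of_not_ge fun h => known (Or.inr (Or.inr (Or.inr (Or.inl (by linarith)))))
  have hout : 2 + A + p * (2 + B) ≤ ((n : ℝ) - 2) * (p * 1 - 1) :=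
    le_of_not_gt fun h => known (Or.inr (Or.inr (Or.inr (Or.inr (Or.inl h)))))
  have hBn : B < (n : ℝ) - 4 := by
    by_contra h
    push Not at h
    have h1 : ((n : ℝ) - 2) * (p * 1 - 1) ≤ (2 + B) * (p * 1 - 1) :=
      mul_le_mul_of_nonneg_right (by linarith) (by linarith)
    linarith
  set l := ((n : ℝ) - 4 - B) / 2 with hl
  have hl0 : 0 < l := by rw [hl]; linarith
  have hγ : 0 < 2 + A + (l + (2 + B)) - p * l := by
    rw [div_add_div _ _ (by linarith : p + 1 ≠ 0) (by norm_num : (1 : ℝ) + 1 ≠ 0),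
      lt_div_iff₀ (by linarith)] at hsub
    rw [hl]
    linarith
  have h1 : ∀ θ ∈ sph n, ∀ s, lap u (pt s θ) = -(Real.exp (A * s) * v (pt s θ) ^ p) :=
    fun θ hθ s => source_pow (fun x hx => (heq x hx).1) hθ s
  have h2r : ∀ θ ∈ sph n, ∀ s, lap v (pt s θ) = -(Real.exp (B * s) * u (pt s θ) ^ (1 : ℝ)) :=
    fun θ hθ s => source_pow (fun x hx => (heq x hx).2) hθ s
  have D : Data n u v p A B (l + (2 + B)) l (2 + B) (2 + A + (l + (2 + B)) - p * l) :=
    { hn := hn3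
      hp := hp
      hA := hA
      hB := hB
      hl := hl0
      hb := rfl
      hk := rfl
      hkl := by rw [hl]; ring
      hγd := rfl
      hγ := hγ
      hu := hu
      hv := hv
      huc := huc
      hvc := hvc
      hup := hup
      hvp := hvp
      h1 := h1
      h2 := fun θ hθ s => by rw [h2r θ hθ s, Real.rpow_one] }
  refine iterate_absurd hn one_pos hp hv hu hvc hvp hup hB hA h2r h1 (k₀ := l) ?_
    (low_of_monotone (by omega) hv hvp D.all_refl)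
  linarith

end Vale.Agent.P100.Fourth
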