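import Vale.Agent.P100.Fourth.Calc
import Mathlib.Analysis.Calculus.LineDeriv.IntegrationByParts
import Mathlib.Analysis.Calculus.ParametricIntegral
import Mathlib.MeasureTheory.Measure.Haar.InnerProductSpace
import Mathlib.MeasureTheory.Measure.Haar.NormedSpace

/-!
Weighted ball averages of functions superharmonic away from the origin.
-/

open Filter Topology Set MeasureTheory
open scoped InnerProductSpace

namespace Vale.Agent.P100.Fourth

variable {n : ℕ} {f : En n → ℝ}

noncomputable def eta (z : En n) : ℝ := max 0 (1 - ‖z‖ ^ 2) ^ 2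

noncomputable def psi (z : En n) : ℝ := max 0 (1 - ‖z‖ ^ 2) ^ 3

noncomputable def avg (f : En n → ℝ) (y : En n) (r : ℝ) : ℝ := ∫ z, eta z * f (y + r • z)

noncomputable def mass (n : ℕ) : ℝ := ∫ z : En n, eta z

lemma eta_nonneg (z : En n) : 0 ≤ eta z := by unfold eta; positivity

lemma eta_le_one (z : En n) : eta z ≤ 1 := by
  refine pow_le_one₀ (le_max_left _ _) (max_le zero_le_one ?_)
  linarith [sq_nonneg ‖z‖]

lemma psi_nonneg (z : En n) : 0 ≤ psi z := by unfold psi; positivity

lemma continuous_eta : Continuous (eta (n := n)) := by unfold eta; fun_prop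

lemma continuous_psi : Continuous (psi (n := n)) := by unfold psi; fun_prop

lemma eta_zero_outside {z : En n} (h : 1 ≤ ‖z‖) : eta z = 0 := by
  have : 1 - ‖z‖ ^ 2 ≤ 0 := by nlinarith
  simp [eta, this]

lemma psi_zero_outside {z : En n} (h : 1 ≤ ‖z‖) : psi z = 0 := by
  have : 1 - ‖z‖ ^ 2 ≤ 0 := by nlinarith
  simp [psi, this]

lemma integrable_supp {g : En n → ℝ} (hg : Continuous g) (h0 : ∀ z, 1 ≤ ‖z‖ → g z = 0) :
    Integrable g := by
  refine hg.integrable_of_hasCompactSupport (HasCompactSupport.intro (isCompact_closedBall (0 : En n) 1) ?_)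
  intro z hz
  refine h0 z ?_
  rw [Metric.mem_closedBall, dist_zero_right, not_le] at hz
  exact hz.le

lemma mass_pos : 0 < mass n := by
  refine integral_pos_of_integrable_nonneg_nonzero (x := (0 : En n)) continuous_eta
    (integrable_supp continuous_eta fun z => eta_zero_outside) eta_nonneg ?_
  simp [eta]

lemma shifted_norm {y z : En n} {t : ℝ} (ht : |t| < ‖y‖) (h : y + t • z = 0) : 1 < ‖z‖ := by
  have e : ‖y‖ = |t| * ‖z‖ := by
    rw [eq_neg_of_add_eq_zero_left h, norm_neg, norm_smul, Real.norm_eq_abs]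
  by_contra hc
  push Not at hc
  have := mul_le_of_le_one_right (abs_nonneg t) hc
  linarith

lemma cont_supp {g φ : En n → ℝ} (hg : Continuous g) (h0 : ∀ z, 1 ≤ ‖z‖ → g z = 0)
    (hφ : ContinuousOn φ {0}ᶜ) {y : En n} {t : ℝ} (ht : |t| < ‖y‖) :
    Continuous fun z => g z * φ (y + t • z) := by
  refine continuous_iff_continuousAt.2 fun z => ?_
  rcases eq_or_ne (y + t • z) 0 with h | h
  · refine (continuousAt_const (y := (0 : ℝ))).congr ?_
    filter_upwards [continuous_norm.continuousAt.eventually (lt_mem_nhds (shifted_norm ht h))] with w hw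
    simp [h0 w hw.le]
  · exact hg.continuousAt.mul ((hφ.continuousAt (isOpen_compl_singleton.mem_nhds h)).comp
      (f := fun w => y + t • w) (by fun_prop))

lemma avg_integrable (hf : ContinuousOn f {0}ᶜ) {y : En n} {t : ℝ} (ht : |t| < ‖y‖) :
    Integrable fun z => eta z * f (y + t • z) :=
  integrable_supp (cont_supp continuous_eta (fun _ => eta_zero_outside) hf ht)
    fun z hz => by simp [eta_zero_outside hz]

lemma hasDerivAt_cube (x : ℝ) : HasDerivAt (fun s : ℝ => max 0 s ^ 3) (3 * max 0 x ^ 2) x := by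
  rcases lt_trichotomy x 0 with h | h | h
  · refine ((hasDerivAt_const x (0 : ℝ)).congr_of_eventuallyEq ?_).congr_deriv (by simp [h.le])
    filter_upwards [Iio_mem_nhds h] with s hs
    simp [(show s ≤ 0 from le_of_lt hs)]
  · subst h
    rw [hasDerivAt_iff_isLittleO]
    simp only [max_self, ne_eq, OfNat.ofNat_ne_zero, not_false_eq_true, zero_pow, mul_zero,
      smul_zero, sub_zero]
    have h2 : (fun s : ℝ => max 0 s ^ 3) =O[𝓝 0] fun s : ℝ => s ^ 3 := by
      refine Asymptotics.IsBigO.of_bound 1 (Eventually.of_forall fun s => ?_)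
      rw [one_mul, norm_pow, norm_pow]
      refine pow_le_pow_left₀ (norm_nonneg _) ?_ 3
      rw [Real.norm_eq_abs, Real.norm_eq_abs, abs_of_nonneg (le_max_left _ _)]
      exact max_le (abs_nonneg s) (le_abs_self s)
    exact h2.trans_isLittleO (Asymptotics.isLittleO_pow_id (by norm_num))
  · refine ((hasDerivAt_pow 3 x).congr_of_eventuallyEq ?_).congr_deriv (by simp [h.le])
    filter_upwards [Ioi_mem_nhds h] with s hs
    simp [(show 0 ≤ s from le_of_lt hs)]

lemma hasFDerivAt_psi (z : En n) :
    HasFDerivAt (psi (n := n)) ((-6 * eta z) • innerSL ℝ z) z := by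
  have h := (hasDerivAt_cube (1 - ‖z‖ ^ 2)).comp_hasFDerivAt (f := fun w : En n => 1 - ‖w‖ ^ 2) z
    ((hasStrictFDerivAt_norm_sq z).hasFDerivAt.const_sub 1)
  refine h.congr_fderiv ?_
  ext w
  simp [eta]
  ring

lemma bump_hasFDerivAt (hf : C2 f) {y : En n} {t : ℝ} (ht : |t| < ‖y‖) (e z : En n) :
    ∃ D : En n →L[ℝ] ℝ, HasFDerivAt (fun w => psi w * fderiv ℝ f (y + t • w) e) D z ∧
      D e = t * (psi z * hes f (y + t • z) e e)
        - 6 * (eta z * ⟪z, e⟫_ℝ * fderiv ℝ f (y + t • z) e) := by
  rcases eq_or_ne (y + t • z) 0 with h | h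
  · have hz := shifted_norm ht h
    refine ⟨0, (hasFDerivAt_const (0 : ℝ) z).congr_of_eventuallyEq ?_,
      by simp [psi_zero_outside hz.le, eta_zero_outside hz.le]⟩
    filter_upwards [continuous_norm.continuousAt.eventually (lt_mem_nhds hz)] with w hw
    simp [psi_zero_outside hw.le]
  · have h1 := (hf.hasFDerivAt_fderiv h).comp (f := fun w => y + t • w) z
      (((hasFDerivAt_id z).const_smul t).const_add y)
    have h2 := (ContinuousLinearMap.apply ℝ ℝ e).hasFDerivAt.comp z h1
    refine ⟨_, (hasFDerivAt_psi z).mul h2, ?_⟩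
    simp [inner_smul_left]
    ring

lemma continuousOn_hes_apply (hf : C2 f) (a b : En n) :
    ContinuousOn (fun x => hes f x a b) {0}ᶜ :=
  (((hf.fderiv_of_isOpen isOpen_compl_singleton (m := 1) (by norm_num)).continuousOn_fderiv_of_isOpen
    isOpen_compl_singleton le_rfl).clm_apply continuousOn_const).clm_apply continuousOn_const

lemma continuousOn_fderiv_apply (hf : C2 f) (a : En n) :
    ContinuousOn (fun x => fderiv ℝ f x a) {0}ᶜ :=
  (hf.continuousOn_fderiv_of_isOpen isOpen_compl_singleton (by norm_num)).clm_apply continuousOn_const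

/-- The sign of the derivative of the average in the radius. -/
lemma avg_deriv_nonpos (hf : C2 f) (hlap : ∀ x, x ≠ 0 → lap f x ≤ 0) {y : En n} {t : ℝ}
    (ht0 : 0 ≤ t) (ht : |t| < ‖y‖) :
    ∫ z, eta z * fderiv ℝ f (y + t • z) z ≤ 0 := by
  set B := EuclideanSpace.basisFun (Fin n) ℝ
  let H : Fin n → En n → ℝ := fun i w => psi w * fderiv ℝ f (y + t • w) (B i)
  let P : Fin n → En n → ℝ := fun i z => psi z * hes f (y + t • z) (B i) (B i)
  let Q : Fin n → En n → ℝ := fun i z => eta z * ⟪z, B i⟫_ℝ * fderiv ℝ f (y + t • z) (B i)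
  have hP : ∀ i, Integrable (P i) := fun i =>
    integrable_supp (cont_supp continuous_psi (fun _ => psi_zero_outside) (continuousOn_hes_apply hf _ _) ht)
      fun z hz => by simp [P, psi_zero_outside hz]
  have hQ : ∀ i, Integrable (Q i) := fun i =>
    integrable_supp (cont_supp (g := fun z => eta z * ⟪z, B i⟫_ℝ)
      (continuous_eta.mul (by fun_prop)) (fun z hz => by simp [eta_zero_outside hz])
      (continuousOn_fderiv_apply hf _) ht)
      fun z hz => by simp [Q, eta_zero_outside hz]
  have hzero : ∀ i, t * ∫ z, P i z = 6 * ∫ z, Q i z := by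
    intro i
    have hd : ∀ z, fderiv ℝ (H i) z (B i) = t * P i z - 6 * Q i z := fun z => by
      obtain ⟨D, hD, hv⟩ := bump_hasFDerivAt hf ht (B i) z
      simp only [H, hD.fderiv, hv, P, Q]
    have hHd : ∀ z, DifferentiableAt ℝ (H i) z := fun z => by
      obtain ⟨D, hD, _⟩ := bump_hasFDerivAt hf ht (B i) z
      exact hD.differentiableAt
    have hint : Integrable (H i) :=
      integrable_supp (cont_supp continuous_psi (fun _ => psi_zero_outside) (continuousOn_fderiv_apply hf _) ht)
        fun z hz => by simp [H, psi_zero_outside hz]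
    have hint' : Integrable fun z => t * P i z - 6 * Q i z :=
      ((hP i).const_mul t).sub ((hQ i).const_mul 6)
    have := integral_mul_fderiv_eq_neg_fderiv_mul_of_integrable (μ := (volume : Measure (En n)))
      (f := fun _ : En n => (1 : ℝ)) (g := H i) (v := B i)
      (by simp) (by simpa [hd] using hint') (by simpa using hint)
      (fun _ _ => differentiableAt_const _) (fun z _ => hHd z)
    simp only [fderiv_fun_const, Pi.zero_apply, zero_apply, one_mul, zero_mul, integral_zero, neg_zero, hd] at this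
    rw [integral_sub ((hP i).const_mul t) ((hQ i).const_mul 6), integral_const_mul, integral_const_mul] at this
    linarith
  have hrep : ∀ z, eta z * fderiv ℝ f (y + t • z) z = ∑ i, Q i z := fun z => by
    have hz : ∑ i, ⟪z, B i⟫_ℝ • B i = z := by
      conv_rhs => rw [← B.sum_repr' z]
      exact Finset.sum_congr rfl fun i _ => by rw [real_inner_comm]
    conv_lhs => arg 2; arg 2; rw [← hz]
    simp [map_sum, Q, Finset.mul_sum, mul_assoc]
  have hPs : ∑ i, ∫ z, P i z ≤ 0 := by
    rw [← integral_finsetSum _ fun i _ => hP i]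
    refine integral_nonpos fun z => ?_
    rcases eq_or_ne (y + t • z) 0 with h | h
    · simp [P, psi_zero_outside (shifted_norm ht h).le]
    · have : ∑ i, P i z = psi z * lap f (y + t • z) := by simp [P, lap, Finset.mul_sum, B]
      simpa [this] using mul_nonpos_of_nonneg_of_nonpos (psi_nonneg z) (hlap _ h)
  simp only [hrep]
  rw [integral_finsetSum _ fun i _ => hQ i]
  have : 6 * ∑ i, ∫ z, Q i z = t * ∑ i, ∫ z, P i z := by
    rw [Finset.mul_sum, Finset.mul_sum]
    exact Finset.sum_congr rfl fun i _ => (hzero i).symm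
  linarith [mul_nonpos_of_nonneg_of_nonpos ht0 hPs]

lemma hasDerivAt_avg (hf : C2 f) {y : En n} {t₀ : ℝ} (ht : |t₀| < ‖y‖) :
    HasDerivAt (fun t => avg f y t) (∫ z, eta z * fderiv ℝ f (y + t₀ • z) z) t₀ := by
  set d := (‖y‖ - |t₀|) / 2 with hd
  have hd0 : 0 < d := by linarith
  have hnear : ∀ t ∈ Metric.closedBall t₀ d, |t| < ‖y‖ := fun t h => by
    rw [Metric.mem_closedBall, Real.dist_eq] at h
    have := abs_sub_abs_le_abs_sub t t₀
    linarith
  have hne : ∀ t ∈ Metric.closedBall t₀ d, ∀ z : En n, ‖z‖ ≤ 1 → y + t • z ≠ 0 := fun t h z hz e =>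
    (shifted_norm (hnear t h) e).not_ge hz
  have hc : ContinuousOn (fun q : ℝ × En n => eta q.2 * fderiv ℝ f (y + q.1 • q.2) q.2)
      (Metric.closedBall t₀ d ×ˢ Metric.closedBall (0 : En n) 1) := by
    refine (continuous_eta.comp continuous_snd).continuousOn.mul (ContinuousOn.clm_apply ?_ continuousOn_snd)
    refine (hf.continuousOn_fderiv_of_isOpen isOpen_compl_singleton (by norm_num)).comp
      (f := fun q : ℝ × En n => y + q.1 • q.2) (Continuous.continuousOn (by fun_prop))
      (fun q (hq : q ∈ Metric.closedBall t₀ d ×ˢ Metric.closedBall (0 : En n) 1) =>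
        hne q.1 hq.1 q.2 (by simpa using hq.2))
  obtain ⟨C, hC⟩ := ((isCompact_closedBall t₀ d).prod (isCompact_closedBall (0 : En n) 1))
    |>.exists_bound_of_continuousOn hc
  have hmem := Metric.closedBall_mem_nhds t₀ hd0
  refine (hasDerivAt_integral_of_dominated_loc_of_deriv_le (μ := (volume : Measure (En n)))
    (F := fun t z => eta z * f (y + t • z))
    (F' := fun t z => eta z * fderiv ℝ f (y + t • z) z)
    (bound := (Metric.closedBall (0 : En n) 1).indicator fun _ => C) hmem
    (eventually_of_mem hmem fun t h => (avg_integrable hf.continuousOn (hnear t h)).aestronglyMeasurable)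
    (avg_integrable hf.continuousOn ht) ?_ ?_ ?_ ?_).2
  · refine Continuous.aestronglyMeasurable (continuous_iff_continuousAt.2 fun z => ?_)
    rcases eq_or_ne (y + t₀ • z) 0 with h | h
    · refine (continuousAt_const (y := (0 : ℝ))).congr ?_
      filter_upwards [continuous_norm.continuousAt.eventually (lt_mem_nhds (shifted_norm ht h))] with w hw
      simp [eta_zero_outside hw.le]
    · refine continuous_eta.continuousAt.mul (ContinuousAt.clm_apply ?_ continuousAt_id)
      exact ((hf.continuousOn_fderiv_of_isOpen isOpen_compl_singleton (by norm_num)).continuousAt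
        (isOpen_compl_singleton.mem_nhds h)).comp (f := fun w => y + t₀ • w) (by fun_prop)
  · refine Eventually.of_forall fun z t h => ?_
    by_cases hz : z ∈ Metric.closedBall (0 : En n) 1
    · simpa [hz] using hC (t, z) ⟨h, hz⟩
    · rw [Set.indicator_of_notMem hz]
      rw [Metric.mem_closedBall, dist_zero_right, not_le] at hz
      simp [eta_zero_outside hz.le]
  · exact (integrableOn_const (isCompact_closedBall (0 : En n) 1).measure_lt_top.ne).integrable_indicator
      Metric.isClosed_closedBall.measurableSet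
  · refine Eventually.of_forall fun z t h => ?_
    rcases le_or_gt ‖z‖ 1 with hz | hz
    · have h1 : HasDerivAt (fun s : ℝ => y + s • z) z t := by
        simpa using ((hasDerivAt_id t).smul_const z).const_add y
      exact (hf.hasDerivAt_comp h1 (hne t h z hz)).const_mul (eta z)
    · simp [eta_zero_outside hz.le, hasDerivAt_const]

/-- The mean value inequality. -/
lemma avg_le (hf : C2 f) (hlap : ∀ x, x ≠ 0 → lap f x ≤ 0) {y : En n} {r : ℝ} (hr : 0 ≤ r)
    (hry : r < ‖y‖) : avg f y r ≤ mass n * f y := by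
  have habs : ∀ t ∈ Icc 0 r, |t| < ‖y‖ := fun t h => by rw [abs_of_nonneg h.1]; linarith [h.2]
  have hanti : AntitoneOn (fun t => avg f y t) (Icc 0 r) :=
    antitoneOn_of_hasDerivWithinAt_nonpos (convex_Icc 0 r)
      (fun t h => (hasDerivAt_avg hf (habs t h)).continuousAt.continuousWithinAt)
      (fun t h => (hasDerivAt_avg hf (habs t (interior_subset h))).hasDerivWithinAt)
      (fun t h => avg_deriv_nonpos hf hlap (interior_subset (s := Icc 0 r) h).1 (habs t (interior_subset h)))
  refine le_of_le_of_eq (hanti (left_mem_Icc.2 hr) (right_mem_Icc.2 hr) hr) ?_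
  simp [avg, mass, integral_mul_const]

noncomputable def cst (n : ℕ) : ℝ := 9 / 16 * ((4 : ℝ) ^ n)⁻¹ / mass n

lemma cst_pos : 0 < cst n := div_pos (by positivity) mass_pos

/-- A weak Harnack inequality. -/
lemma avg_harnack (hf : C2 f) (hlap : ∀ x, x ≠ 0 → lap f x ≤ 0) (hpos : ∀ x, 0 ≤ f x) {y z : En n}
    {r : ℝ} (hr : 0 < r) (hy : r < ‖y‖) (hz : 4 * r < ‖z‖) (hyz : ‖z - y‖ ≤ r) :
    cst n * avg f y r ≤ f z := by
  set a : En n := r⁻¹ • (z - y) with had
  have ha : ‖a‖ ≤ 1 := by
    rw [had, norm_smul, Real.norm_eq_abs, abs_of_pos (inv_pos.2 hr), inv_mul_le_iff₀ hr]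
    simpa using hyz
  let G : En n → ℝ := fun w => eta w * f (y + r • w)
  have hG : Integrable G := avg_integrable hf.continuousOn (by rw [abs_of_pos hr]; exact hy)
  have hshift : ∫ w, G (a + (4 : ℝ) • w) = ((4 : ℝ) ^ n)⁻¹ * avg f y r := by
    have h1 := Measure.integral_comp_smul (volume : Measure (En n)) (fun w => G (a + w)) 4
    rw [h1, integral_add_left_eq_self G a, finrank_euclideanSpace_fin,
      abs_of_pos (by positivity), smul_eq_mul]
    rfl
  have hzr : |4 * r| < ‖z‖ := by rwa [abs_of_pos (by positivity)]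
  have hle : ∀ w, 9 / 16 * G (a + (4 : ℝ) • w) ≤ eta w * f (z + (4 * r) • w) := by
    intro w
    have e : y + r • (a + (4 : ℝ) • w) = z + (4 * r) • w := by
      rw [had, smul_add, smul_smul, mul_inv_cancel₀ hr.ne', one_smul, smul_smul, mul_comm r 4]
      abel
    simp only [G, e]
    rw [← mul_assoc]
    refine mul_le_mul_of_nonneg_right ?_ (hpos _)
    rcases le_or_gt 1 ‖a + (4 : ℝ) • w‖ with h | h
    · simp [eta_zero_outside h, eta_nonneg]
    · have hw : ‖w‖ ≤ 1 / 2 := by
        have h1 : ‖(4 : ℝ) • w‖ ≤ ‖a + (4 : ℝ) • w‖ + ‖a‖ := by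
          simpa using norm_sub_le (a + (4 : ℝ) • w) a
        rw [norm_smul, Real.norm_eq_abs, abs_of_pos (by norm_num : (0 : ℝ) < 4)] at h1
        linarith
      have h3 : (3 / 4 : ℝ) ≤ max 0 (1 - ‖w‖ ^ 2) :=
        le_max_of_le_right (by nlinarith [norm_nonneg w])
      have h4 : (9 / 16 : ℝ) ≤ eta w := by unfold eta; nlinarith
      linarith [eta_le_one (a + (4 : ℝ) • w)]
  have hint1 : Integrable fun w => 9 / 16 * G (a + (4 : ℝ) • w) := by
    have h1 : Integrable fun w => G (a + w) := hG.comp_add_left a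
    exact ((integrable_comp_smul_iff (volume : Measure (En n)) (fun w => G (a + w))
      (R := (4 : ℝ)) (by norm_num)).2 h1).const_mul _
  have := (integral_mono hint1 (avg_integrable hf.continuousOn hzr) hle).trans
    (avg_le hf hlap (by positivity : (0 : ℝ) ≤ 4 * r) hz)
  rw [integral_const_mul, hshift] at this
  rw [cst, div_mul_eq_mul_div, div_le_iff₀ mass_pos]
  linarith

lemma avg_scale (f : En n → ℝ) (a c : ℝ) (x : En n) (r : ℝ) :
    avg (fun y => a * f (c • y)) x r = a * avg f (c • x) (c * r) := by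
  simp only [avg, smul_add, smul_smul, ← integral_const_mul]
  congr 1; ext z; ring

end Vale.Agent.P100.Fourth
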