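import Vale.Agent.P100.Fourth.Calc

/-!
The smoothed combination `U + 2bV'` as a function on the punctured space.
-/

open Filter Topology Set MeasureTheory
open scoped InnerProductSpace

namespace Vale.Agent.P100.Fourth

variable {n : ℕ} {u v : En n → ℝ}

/-- Averages of `u` along rays. -/
noncomputable def uAvg (k h : ℝ) (u : En n → ℝ) : En n → ℝ :=
  fun x => h⁻¹ * rayInt h (fun t => Real.exp (-k * t)) u x

/-- The smoothed combination. -/
noncomputable def fAux (k l b h : ℝ) (u v : En n → ℝ) : En n → ℝ :=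
  fun x => ‖x‖ ^ b * uAvg k h u x
    + (2 * b / h * v x - 2 * b / h * Real.exp (-l * h) * v (Real.exp (-h) • x))

lemma uAvg_c2 (hu : C2 u) (k h : ℝ) : C2 (uAvg k h u) :=
  contDiffOn_const.mul (rayInt_c2 hu (by fun_prop))

lemma fAux_c2 (hu : C2 u) (hv : C2 v) (k l b h : ℝ) : C2 (fAux k l b h u v) :=
  (rpow_mul_c2 (uAvg_c2 hu k h) b).add
    ((contDiffOn_const.mul hv).sub (scale_c2 hv _ (Real.exp_pos _).ne'))

lemma exp_smul_pt (s t : ℝ) (θ : En n) : Real.exp (-t) • pt s θ = pt (s - t) θ := by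
  rw [pt, pt, smul_smul, ← Real.exp_add]; ring_nf

lemma norm_pt_rpow {θ : En n} (hθ : θ ∈ sph n) (s c : ℝ) : ‖pt s θ‖ ^ c = Real.exp (c * s) := by
  rw [norm_pt hθ, ← Real.exp_mul, mul_comm]

lemma cU_uAvg (hu : C2 u) {k h : ℝ} {θ : En n} (hθ : θ ∈ sph n) (s : ℝ) :
    cU k (uAvg k h u) s θ = h⁻¹ * ∫ t in (0 : ℝ)..h, cU k u (s - t) θ := by
  rw [← deriv_rayInt hu hθ]
  simp only [cU, uAvg]; ring

lemma cU1_uAvg (hu : C2 u) {k h : ℝ} {θ : En n} (hθ : θ ∈ sph n) (s : ℝ) :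
    cU1 k (uAvg k h u) s θ = h⁻¹ * (cU k u s θ - cU k u (s - h) θ) := by
  have hC := rayInt_c2 hu (h := h) (w := fun t => Real.exp (-k * t)) (by fun_prop)
  have hd : fderiv ℝ (uAvg k h u) (pt s θ)
      = h⁻¹ • fderiv ℝ (rayInt h (fun t => Real.exp (-k * t)) u) (pt s θ) :=
    ((hC.hasFDerivAt (pt_ne_zero hθ s)).const_mul h⁻¹).fderiv
  rw [← cU1_rayInt hu hθ]
  simp only [cU1, rd, hd]
  simp [uAvg]
  ring

lemma cU_fAux (hu : C2 u) {k l b h : ℝ} (hk : k = l + b) {θ : En n} (hθ : θ ∈ sph n) (s : ℝ) :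
    cU l (fAux k l b h u v) s θ = (h⁻¹ * ∫ t in (0 : ℝ)..h, cU k u (s - t) θ)
      + 2 * b / h * (cU l v s θ - cU l v (s - h) θ) := by
  rw [← cU_uAvg hu hθ]
  simp only [cU, fAux, norm_pt_rpow hθ, exp_smul_pt, mul_add, mul_sub, ← mul_assoc]
  have e1 : Real.exp (l * s) * Real.exp (b * s) = Real.exp (k * s) := by
    rw [← Real.exp_add, hk]; ring_nf
  have e2 : Real.exp (l * s) * Real.exp (-l * h) = Real.exp (l * s - l * h) := by
    rw [← Real.exp_add]; ring_nf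
  rw [e1, ← e2]; ring

lemma lap_uAvg (hu : C2 u) {k h : ℝ} {θ : En n} (hθ : θ ∈ sph n) (s : ℝ) :
    Real.exp ((k + 2) * s) * lap (uAvg k h u) (pt s θ)
      = h⁻¹ * ∫ t in (0 : ℝ)..h, Real.exp ((k + 2) * (s - t)) * lap u (pt (s - t) θ) := by
  have hC := rayInt_c2 hu (h := h) (w := fun t => Real.exp (-k * t)) (by fun_prop)
  have h1 := scale_lap hC h⁻¹ one_ne_zero (pt_ne_zero hθ s)
  simp only [one_smul, one_pow, mul_one] at h1
  change Real.exp _ * lap (fun y => h⁻¹ * rayInt h (fun t => Real.exp (-k * t)) u y) _ = _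
  rw [h1, rayInt_lap hu (by fun_prop) (pt_ne_zero hθ s), rayInt, mul_left_comm,
    ← intervalIntegral.integral_const_mul]
  congr 1
  refine intervalIntegral.integral_congr fun t _ => ?_
  simp only [smul_eq_mul, exp_smul_pt]
  rw [← mul_assoc, ← Real.exp_add, ← Real.exp_add, ← Real.exp_add]
  ring_nf

lemma lap_fAux (hu : C2 u) (hv : C2 v) {k l b h : ℝ} (hk : k = l + b)
    (hkl : k + l = (n : ℝ) - 2)
    (h2 : ∀ θ ∈ sph n, ∀ s, lap v (pt s θ) = -(Real.exp ((b - 2) * s) * u (pt s θ)))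
    {θ : En n} (hθ : θ ∈ sph n) (s : ℝ) :
    Real.exp ((l + 2) * s) * lap (fAux k l b h u v) (pt s θ)
      = h⁻¹ * ∫ t in (0 : ℝ)..h, Real.exp ((k + 2) * (s - t)) * lap u (pt (s - t) θ) := by
  have hx := pt_ne_zero hθ s
  have hA := uAvg_c2 hu k h
  have hB : C2 fun y => 2 * b / h * v y := contDiffOn_const.mul hv
  have hC : C2 fun y => 2 * b / h * Real.exp (-l * h) * v (Real.exp (-h) • y) :=
    scale_c2 hv _ (Real.exp_pos _).ne'
  have e1 : lap (fAux k l b h u v) (pt s θ) =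
      lap (fun y => ‖y‖ ^ b * uAvg k h u y) (pt s θ)
        + lap (fun y => 2 * b / h * v y - 2 * b / h * Real.exp (-l * h) * v (Real.exp (-h) • y)) (pt s θ) :=
    add_lap (rpow_mul_c2 hA b) (hB.sub hC) hx
  have e2 := scale_lap hv (2 * b / h) one_ne_zero hx
  simp only [one_smul, one_pow, mul_one] at e2
  rw [e1, sub_lap hB hC hx, e2, scale_lap hv _ (Real.exp_pos _).ne' hx, rpow_mul_lap hA b hx,
    norm_pt_rpow hθ, norm_pt_rpow hθ, exp_smul_pt, h2 θ hθ s, h2 θ hθ (s - h)]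
  have e3 : rd (uAvg k h u) (pt s θ) + k * uAvg k h u (pt s θ)
      = Real.exp (-(k * s)) * (h⁻¹ * (cU k u s θ - cU k u (s - h) θ)) := by
    rw [← cU1_uAvg hu hθ, cU1, ← mul_assoc, ← Real.exp_add]
    simp [add_comm]
  have e4 := lap_uAvg hu (k := k) (h := h) hθ s
  rw [← e4]
  have e5 : Real.exp ((l + 2) * s) * Real.exp (b * s) = Real.exp ((k + 2) * s) := by
    rw [← Real.exp_add, hk]; ring_nf
  have e6 : Real.exp ((l + 2) * s) * Real.exp ((b - 2) * s) = Real.exp (k * s) := by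
    rw [← Real.exp_add, hk]; ring_nf
  have e7 : Real.exp ((l + 2) * s) *
      (Real.exp (-l * h) * Real.exp (-h) ^ 2 * Real.exp ((b - 2) * (s - h)))
      = Real.exp (k * (s - h)) := by
    rw [sq, ← Real.exp_add, ← Real.exp_add, ← Real.exp_add, ← Real.exp_add, hk]; ring_nf
  have e8 : Real.exp (k * s) * Real.exp (-(k * s)) = 1 := by
    rw [← Real.exp_add, add_neg_cancel, Real.exp_zero]
  simp only [cU] at e3
  linear_combination (lap (uAvg k h u) (pt s θ)) * e5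
    + (2 * b * (rd (uAvg k h u) (pt s θ) + k * uAvg k h u (pt s θ))) * e6
    + (2 * b * Real.exp (k * s)) * e3
    + (2 * b * h⁻¹ * (Real.exp (k * s) * u (pt s θ) - Real.exp (k * (s - h)) * u (pt (s - h) θ))) * e8
    - (2 * b / h * u (pt s θ)) * e6
    + (2 * b / h * u (pt (s - h) θ)) * e7
    - (b * Real.exp ((l + 2) * s) * Real.exp ((b - 2) * s) * uAvg k h u (pt s θ)) * (hk + hkl)

end Vale.Agent.P100.Fourth
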