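import Vale.Agent.P100.Moving

/-!
Variants of the moving-plane lemmas with a supplied differential inequality.
-/

open Filter Topology Set
open scoped InnerProductSpace

namespace Vale.Agent.P100.Fourth

variable {n : ℕ} {f : En n → ℝ} {k : ℝ}

lemma refl_diff_deriv (hf : C2 f) (L : ℝ) {θ : En n} (hθ : θ ∈ sph n) (s : ℝ) :
    HasDerivAt (fun t => cU k f t θ - cU k f (2 * L - t) θ)
        (cU1 k f s θ + cU1 k f (2 * L - s) θ) s ∧
      HasDerivAt (fun t => cU1 k f t θ + cU1 k f (2 * L - t) θ)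
        (cU2 k f s θ - cU2 k f (2 * L - s) θ) s := by
  constructor
  · refine ((hasDerivAt_cU hf k s hθ).sub
      ((hasDerivAt_cU hf k _ hθ).comp_const_sub (2 * L) s)).congr_deriv ?_
    simp
  · refine ((hasDerivAt_cU1 hf k s hθ).add
      ((hasDerivAt_cU1 hf k _ hθ).comp_const_sub (2 * L) s)).congr_deriv ?_
    simp [sub_eq_add_neg]

lemma refl_diff_continuous (hf : C2 f) (L : ℝ) :
    ContinuousOn (fun z : ℝ × En n => cU k f z.1 z.2 - cU k f (2 * L - z.1) z.2) (univ ×ˢ sph n) :=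
  (continuousOn_cU hf k).sub ((continuousOn_cU hf k).comp
    (f := fun z : ℝ × En n => (2 * L - z.1, z.2)) (by fun_prop) fun _ hz => ⟨trivial, hz.2⟩)

/-- The differential inequality makes a reflected inequality strict. -/
lemma strict_of_ineq (hn : 0 < n) (hf : C2 f) {c β Ls : ℝ} (hR : Refl k f Ls)
    (hL0 : ∀ θ ∈ sph n, ∀ s, Ls < s →
      cU2 k f s θ - cU2 k f (2 * Ls - s) θ + c * (cU1 k f s θ + cU1 k f (2 * Ls - s) θ)
          + (cT k f s θ - cT k f (2 * Ls - s) θ)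
        < β * (cU k f s θ - cU k f (2 * Ls - s) θ)) :
    (∀ θ ∈ sph n, ∀ s, Ls < s → cU k f (2 * Ls - s) θ < cU k f s θ) ∧
      ∀ θ ∈ sph n, 0 < cU1 k f Ls θ := by
  set G : ℝ → En n → ℝ := fun s θ => cU k f s θ - cU k f (2 * Ls - s) θ with hG
  set G1 : ℝ → En n → ℝ := fun s θ => cU1 k f s θ + cU1 k f (2 * Ls - s) θ with hG1
  have hd : ∀ θ ∈ sph n, ∀ s, HasDerivAt (fun t => G t θ) (G1 s θ) s := fun θ hθ s =>
    (refl_diff_deriv hf Ls hθ s).1
  have hd' : ∀ θ ∈ sph n, ∀ s, HasDerivAt (fun t => G1 t θ)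
      (cU2 k f s θ - cU2 k f (2 * Ls - s) θ) s := fun θ hθ s => (refl_diff_deriv hf Ls hθ s).2
  have hnn : ∀ θ ∈ sph n, ∀ s, Ls < s → 0 ≤ G s θ := fun θ hθ s hs =>
    sub_nonneg.2 (hR θ hθ s hs)
  have first : ∀ θ ∈ sph n, ∀ s, Ls < s → cU k f (2 * Ls - s) θ < cU k f s θ := by
    intro θ hθ s hs
    rcases (hnn θ hθ s hs).eq_or_lt with h | h
    · exfalso
      have hloc : IsLocalMin (fun t => G t θ) s := by
        filter_upwards [Ioi_mem_nhds hs] with t ht
        rw [← h]; exact hnn θ hθ t ht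
      have h1 : G1 s θ = 0 := hloc.hasDerivAt_eq_zero (hd θ hθ s)
      have h2 := second_deriv_nonneg (Eventually.of_forall (hd θ hθ)) (hd' θ hθ s) hloc
      have h3 : 0 ≤ cT k f s θ - cT k f (2 * Ls - s) θ := cT_sub_nonneg hf k hθ fun θ' hθ' => by
        have := hnn θ' hθ' s hs
        simp only [hG] at h this; linarith
      have := hL0 θ hθ s hs
      simp only [hG1] at h1
      simp only [hG] at h
      rw [h1, ← h] at this
      linarith
    · simpa [hG] using h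
  refine ⟨first, fun θ hθ => ?_⟩
  have hGc : ContinuousOn (fun z : ℝ × En n => G z.1 z.2) (univ ×ˢ sph n) :=
    refl_diff_continuous hf Ls
  obtain ⟨θm, hθm, hmin⟩ := (isCompact_sphere (0 : En n) 1).exists_isMinOn (sph_nonempty hn)
    (hGc.comp (f := fun θ : En n => (Ls + 1, θ)) (by fun_prop) fun θ hθ => ⟨trivial, hθ⟩)
  have hm0 : 0 < G (Ls + 1) θm := sub_pos.2 (first θm hθm _ (by linarith))
  set κ := |c| + |β| + 1 with hκdef
  have hκ0 : 0 < κ := by positivity
  have hκ : |β| < κ ^ 2 + c * κ := by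
    have : |β| + 1 ≤ κ + c := by linarith [neg_abs_le c]
    nlinarith [abs_nonneg β, abs_nonneg c]
  set ε := G (Ls + 1) θm / Real.exp κ with hεdef
  have hε : 0 < ε := by positivity
  let φ : ℝ → ℝ := fun s => ε * (Real.exp (κ * (s - Ls)) - 1)
  have hφ : ∀ s, HasDerivAt φ (ε * κ * Real.exp (κ * (s - Ls))) s := fun s => by
    refine (((((hasDerivAt_id s).sub_const Ls).const_mul κ).exp.sub_const 1).const_mul ε
      ).congr_deriv ?_
    simp; ring
  have hφ' : ∀ s, HasDerivAt (fun t => ε * κ * Real.exp (κ * (t - Ls)))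
      (ε * κ ^ 2 * Real.exp (κ * (s - Ls))) s := fun s => by
    refine ((((hasDerivAt_id s).sub_const Ls).const_mul κ).exp.const_mul (ε * κ)).congr_deriv ?_
    simp; ring
  have key := slab_le (lo := Ls) (hi := Ls + 1) (c := c) hGc hd hd'
    (GT := fun s θ => cT k f s θ - cT k f (2 * Ls - s) θ)
    (fun θ hθ s h => cT_sub_nonneg hf k hθ h) hφ hφ'
    (fun θ' hθ' => ⟨by simp [φ, hG, show 2 * Ls - Ls = Ls by ring], by
      have h1 : φ (Ls + 1) ≤ ε * Real.exp κ := by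
        simp only [φ, add_sub_cancel_left, mul_one]; nlinarith
      have h2 : G (Ls + 1) θm ≤ G (Ls + 1) θ' := hmin hθ'
      have h3 : ε * Real.exp κ = G (Ls + 1) θm := div_mul_cancel₀ _ (Real.exp_pos κ).ne'
      linarith⟩)
    (fun θ' hθ' s hs hlt => by
      have h1 := hL0 θ' hθ' s hs.1
      have h2 := hnn θ' hθ' s hs.1
      have hE := Real.exp_pos (κ * (s - Ls))
      have h3 : β * G s θ' ≤ |β| * (ε * Real.exp (κ * (s - Ls))) := by
        refine (mul_le_mul_of_nonneg_right (le_abs_self β) h2).trans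
          (mul_le_mul_of_nonneg_left ?_ (abs_nonneg β))
        simp only [φ] at hlt; nlinarith
      have h4 : |β| * (ε * Real.exp (κ * (s - Ls))) <
          (κ ^ 2 + c * κ) * (ε * Real.exp (κ * (s - Ls))) :=
        mul_lt_mul_of_pos_right hκ (by positivity)
      simp only [hG, hG1] at h1 h2 h3 ⊢
      nlinarith)
  have hder := deriv_nonneg_right ((hd θ hθ Ls).sub (hφ Ls)) (by
    filter_upwards [Ioo_mem_nhdsGT (show Ls < Ls + 1 by linarith)] with t ht
    have := key θ hθ t (Ioo_subset_Icc_self ht)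
    simp only [φ, hG, show 2 * Ls - Ls = Ls by ring, Pi.sub_apply, sub_self, mul_zero,
      Real.exp_zero]
    simp only [φ, hG] at this
    linarith)
  simp only [hG1, show 2 * Ls - Ls = Ls by ring, sub_self, mul_zero, Real.exp_zero, mul_one] at hder
  linarith [mul_pos hε hκ0]

/-- Moving the plane a little further, given control of the tail for nearby planes. -/
lemma extend_near (hf : C2 f) {Ls R e₀ : ℝ} (he₀ : 0 < e₀) (hR : ∀ L ≤ Ls, Refl k f L)
    (h1 : ∀ θ ∈ sph n, ∀ s, Ls < s → cU k f (2 * Ls - s) θ < cU k f s θ)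
    (h2 : ∀ θ ∈ sph n, 0 < cU1 k f Ls θ)
    (htail : ∀ L, Ls ≤ L → L ≤ Ls + e₀ → ∀ θ ∈ sph n, ∀ s ≥ R,
      cU k f (2 * L - s) θ ≤ cU k f s θ) :
    ∃ ε > 0, ∀ L ≤ Ls + ε, Refl k f L := by
  by_contra hcon
  push Not at hcon
  have hb : ∀ m : ℕ, ∃ L θ s, L ≤ Ls + e₀ / ((m : ℝ) + 1) ∧ Ls < L ∧ θ ∈ sph n ∧ L < s ∧ s < R ∧
      cU k f s θ < cU k f (2 * L - s) θ := by
    intro m
    obtain ⟨L, hL, hnot⟩ := hcon (e₀ / ((m : ℝ) + 1)) (by positivity)
    simp only [Refl, not_forall, not_le] at hnot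
    obtain ⟨θ, hθ, s, hs, hlt⟩ := hnot
    have hLs : Ls < L := lt_of_not_ge fun h => (hR L h θ hθ s hs).not_gt hlt
    have hL1 : L ≤ Ls + e₀ := hL.trans (by
      have : e₀ / ((m : ℝ) + 1) ≤ e₀ :=
        div_le_self he₀.le (by linarith [(Nat.cast_nonneg m : (0 : ℝ) ≤ m)])
      linarith)
    exact ⟨L, θ, s, hL, hLs, hθ, hs,
      lt_of_not_ge fun h => (htail L hLs.le hL1 θ hθ s h).not_gt hlt, hlt⟩
  choose L θ s hL hLs hθ hs hsR hlt using hb
  obtain ⟨⟨s₀, θ₀⟩, ⟨hs₀, hθ₀⟩, φ, hφ, hlim⟩ :=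
    ((isCompact_Icc (a := Ls) (b := R)).prod (isCompact_sphere (0 : En n) 1)).tendsto_subseq
      (x := fun m => (s m, θ m))
      fun m => ⟨⟨((hLs m).trans (hs m)).le, (hsR m).le⟩, hθ m⟩
  have hLt : Tendsto L atTop (𝓝 Ls) := by
    refine tendsto_of_tendsto_of_tendsto_of_le_of_le tendsto_const_nhds ?_ (fun m => (hLs m).le) hL
    have := (tendsto_one_div_add_atTop_nhds_zero_nat.const_mul e₀).const_add Ls
    simpa [div_eq_mul_inv] using this
  have hst : Tendsto (fun m => s (φ m)) atTop (𝓝 s₀) := (continuous_fst.tendsto _).comp hlim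
  have hθt : Tendsto (fun m => θ (φ m)) atTop (𝓝 θ₀) := (continuous_snd.tendsto _).comp hlim
  have htt : Tendsto (fun m => 2 * L (φ m) - s (φ m)) atTop (𝓝 (2 * Ls - s₀)) :=
    ((hLt.comp hφ.tendsto_atTop).const_mul 2).sub hst
  have lim : ∀ {g : ℝ → En n → ℝ} {x : ℕ → ℝ} {x₀ : ℝ},
      ContinuousOn (fun z : ℝ × En n => g z.1 z.2) (univ ×ˢ sph n) →
      Tendsto x atTop (𝓝 x₀) →
      Tendsto (fun m => g (x m) (θ (φ m))) atTop (𝓝 (g x₀ θ₀)) := by
    intro g x x₀ hg hx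
    exact (hg (x₀, θ₀) ⟨trivial, hθ₀⟩).tendsto.comp (tendsto_nhdsWithin_iff.2
      ⟨hx.prodMk_nhds hθt, Eventually.of_forall fun m => ⟨trivial, hθ _⟩⟩)
  rcases hs₀.1.eq_or_lt with h | h
  · have hex : ∀ m, ∃ ξ ∈ Ioo (2 * L m - s m) (s m), cU1 k f ξ (θ m) < 0 := by
      intro m
      have ha : 2 * L m - s m < s m := by linarith [hs m]
      obtain ⟨ξ, hξ, he⟩ := exists_hasDerivAt_eq_slope (fun t => cU k f t (θ m)) _ ha
        (fun t _ => (hasDerivAt_cU hf k t (hθ m)).continuousAt.continuousWithinAt)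
        (fun t _ => hasDerivAt_cU hf k t (hθ m))
      exact ⟨ξ, hξ, by rw [he]; exact div_neg_of_neg_of_pos (sub_neg.2 (hlt m)) (sub_pos.2 ha)⟩
    choose ξ hξ hξneg using hex
    have hξt : Tendsto (fun m => ξ (φ m)) atTop (𝓝 Ls) := by
      subst h
      refine tendsto_of_tendsto_of_tendsto_of_le_of_le ?_ hst
        (fun m => (hξ _).1.le) (fun m => (hξ _).2.le)
      simpa [two_mul] using htt
    exact (h2 θ₀ hθ₀).not_ge (le_of_tendsto (lim (continuousOn_cU1 hf k) hξt)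
      (Eventually.of_forall fun m => (hξneg _).le))
  · exact (h1 θ₀ hθ₀ s₀ h).not_ge (le_of_tendsto_of_tendsto
      (lim (continuousOn_cU hf k) hst) (lim (continuousOn_cU hf k) htt)
      (Eventually.of_forall fun m => (hlt _).le))

/-- Starting the planes, allowing the borderline exponent. -/
lemma start_le (hk : 0 < k) (hf : C2 f) (hc : Continuous f) (hpos : ∀ x, 0 < f x) {N s₀ : ℝ}
    (hlow : Low f N) (hN : N ≤ 2 * k)
    (h0 : ∀ θ ∈ sph n, ∀ s ≤ s₀, 0 ≤ cU1 k f s θ) :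
    ∃ L₀, ∀ L ≤ L₀, Refl k f L := by
  obtain ⟨M, hM, hMb⟩ := le_on_inner hc hpos s₀
  obtain ⟨c, hc0, hcb⟩ := hlow s₀
  have ht : Tendsto (fun L => M * Real.exp (2 * k * L)) atBot (𝓝 0) := by
    simpa using (Real.tendsto_exp_atBot.comp
      (tendsto_id.const_mul_atBot (show 0 < 2 * k by linarith))).const_mul M
  obtain ⟨L₁, hL₁⟩ := eventually_atBot.1 (ht.eventually_le_const
    (show 0 < c * Real.exp ((2 * k - N) * s₀) by positivity))
  refine ⟨min L₁ s₀, fun L hL θ hθ s hs => ?_⟩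
  have hL1 := hL.trans (min_le_left _ _)
  have hL0 := hL.trans (min_le_right _ _)
  have hmono : MonotoneOn (fun t => cU k f t θ) (Iic s₀) :=
    monotoneOn_of_hasDerivWithinAt_nonneg (convex_Iic s₀)
      (fun t _ => (hasDerivAt_cU hf k t hθ).continuousAt.continuousWithinAt)
      (fun t _ => (hasDerivAt_cU hf k t hθ).hasDerivWithinAt)
      (fun t ht => h0 θ hθ t (interior_subset (s := Iic s₀) ht))
  rcases le_or_gt s s₀ with h | h
  · exact hmono (show 2 * L - s ≤ s₀ by linarith) h (by linarith)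
  calc cU k f (2 * L - s) θ
      ≤ Real.exp (k * (2 * L - s)) * M :=
        mul_le_mul_of_nonneg_left (hMb θ hθ _ (by linarith)) (Real.exp_pos _).le
    _ = Real.exp (-(k * s)) * (M * Real.exp (2 * k * L)) := by
        rw [mul_left_comm _ M, ← Real.exp_add, mul_comm _ M]
        ring_nf
    _ ≤ Real.exp (-(k * s)) * (c * Real.exp ((2 * k - N) * s₀)) :=
        mul_le_mul_of_nonneg_left (hL₁ L hL1) (Real.exp_pos _).le
    _ ≤ Real.exp (-(k * s)) * (c * Real.exp ((2 * k - N) * s)) := by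
        gcongr
    _ = Real.exp (k * s) * (c * Real.exp (-N * s)) := by
        rw [mul_left_comm, ← Real.exp_add, mul_left_comm (Real.exp (k * s)), ← Real.exp_add]
        ring_nf
    _ ≤ cU k f s θ := mul_le_mul_of_nonneg_left (hcb θ hθ s h.le) (Real.exp_pos _).le

end Vale.Agent.P100.Fourth
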