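import Vale.Agent.Results.P100.LiouvilleRegion
import Vale.Agent.P100.Fourth.Decay
import Vale.Agent.P100.Fourth.Smooth
import Vale.Agent.P100.Fourth.Step

/-!
Moving planes for `v` alone when `u = -|x|^(-B) Δv`.
-/

open Filter Topology Set MeasureTheory
open scoped InnerProductSpace

namespace Vale.Agent.P100.Fourth

variable {n : ℕ} {u v : En n → ℝ} {p A B k l b γ : ℝ}

/-- The data of the fourth-order case. -/
structure Data (n : ℕ) (u v : En n → ℝ) (p A B k l b γ : ℝ) : Prop where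
  hn : 3 ≤ n
  hp : 0 < p
  hA : -2 < A
  hB : -2 < B
  hl : 0 < l
  hb : b = 2 + B
  hk : k = l + b
  hkl : k + l = (n : ℝ) - 2
  hγd : γ = 2 + A + k - p * l
  hγ : 0 < γ
  hu : C2 u
  hv : C2 v
  huc : Continuous u
  hvc : Continuous v
  hup : ∀ x, 0 < u x
  hvp : ∀ x, 0 < v x
  h1 : ∀ θ ∈ sph n, ∀ s, lap u (pt s θ) = -(Real.exp (A * s) * v (pt s θ) ^ p)
  h2 : ∀ θ ∈ sph n, ∀ s, lap v (pt s θ) = -(Real.exp (B * s) * u (pt s θ))

noncomputable def Phi (γ l p : ℝ) (v : En n → ℝ) (s : ℝ) (θ : En n) : ℝ :=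
  Real.exp (γ * s) * cU l v s θ ^ p

namespace Data

variable (D : Data n u v p A B k l b γ)
include D

lemma b_pos : 0 < b := by have := D.hB; linarith [D.hb]

lemma k_pos : 0 < k := by linarith [D.hk, D.hl, D.b_pos]

lemma V_eq {θ : En n} (hθ : θ ∈ sph n) (s : ℝ) :
    cU2 l v s θ + b * cU1 l v s θ + cT l v s θ = k * l * cU l v s θ - cU k u s θ := by
  have h := cyl_eq (f := v) l s hθ
  rw [D.h2 θ hθ s, mul_neg, ← mul_assoc, ← Real.exp_add] at h
  rw [show (n : ℝ) - 2 - 2 * l = b by linarith [D.hk, D.hkl],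
    show (n : ℝ) - 2 - l = k by linarith [D.hkl],
    show (l + 2) * s + B * s = k * s by rw [D.hk, D.hb]; ring] at h
  rw [h]; simp only [cU]; ring

lemma Phi_eq {θ : En n} (hθ : θ ∈ sph n) (s : ℝ) :
    Real.exp ((k + 2) * s) * lap u (pt s θ) = -Phi γ l p v s θ := by
  rw [D.h1 θ hθ s, Phi, cU, Real.mul_rpow (Real.exp_pos _).le (D.hvp _).le, ← Real.exp_mul,
    mul_neg, ← mul_assoc, ← mul_assoc, ← Real.exp_add, ← Real.exp_add, D.hγd]
  ring_nf

lemma h2' : ∀ θ ∈ sph n, ∀ s, lap v (pt s θ) = -(Real.exp ((b - 2) * s) * u (pt s θ)) := by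
  intro θ hθ s; rw [D.h2 θ hθ s, show b - 2 = B by linarith [D.hb]]

lemma F_eq {h : ℝ} {θ : En n} (hθ : θ ∈ sph n) (s : ℝ) :
    cU2 l (fAux k l b h u v) s θ + b * cU1 l (fAux k l b h u v) s θ + cT l (fAux k l b h u v) s θ
      = k * l * cU l (fAux k l b h u v) s θ - h⁻¹ * ∫ t in (0 : ℝ)..h, Phi γ l p v (s - t) θ := by
  have e := cyl_eq (f := fAux k l b h u v) l s hθ
  rw [lap_fAux D.hu D.hv D.hk D.hkl D.h2' hθ s] at e
  rw [show (n : ℝ) - 2 - 2 * l = b by linarith [D.hk, D.hkl],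
    show (n : ℝ) - 2 - l = k by linarith [D.hkl]] at e
  rw [e]
  simp only [D.Phi_eq hθ, intervalIntegral.integral_neg]
  ring

lemma A_eq {h : ℝ} {θ : En n} (hθ : θ ∈ sph n) (s : ℝ) :
    cU2 k (uAvg k h u) s θ - b * cU1 k (uAvg k h u) s θ + cT k (uAvg k h u) s θ
      = k * l * cU k (uAvg k h u) s θ - h⁻¹ * ∫ t in (0 : ℝ)..h, Phi γ l p v (s - t) θ := by
  have e := cyl_eq (f := uAvg k h u) k s hθ
  rw [lap_uAvg D.hu hθ s] at e
  rw [show (n : ℝ) - 2 - 2 * k = -b by linarith [D.hk, D.hkl],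
    show (n : ℝ) - 2 - k = l by linarith [D.hkl]] at e
  simp only [D.Phi_eq hθ, intervalIntegral.integral_neg] at e
  linarith

lemma Phi_continuous : ContinuousOn (fun z : ℝ × En n => Phi γ l p v z.1 z.2) (univ ×ˢ sph n) :=
  ContinuousOn.mul (Continuous.continuousOn (by fun_prop))
    ((continuousOn_cU D.hv l).rpow_const fun _ _ => Or.inr D.hp.le)

lemma Phi_continuous_ray {θ : En n} (hθ : θ ∈ sph n) (a : ℝ) :
    Continuous fun t => Phi γ l p v (a - t) θ :=
  D.Phi_continuous.comp_continuous (f := fun t : ℝ => (a - t, θ)) (by fun_prop) fun _ => ⟨trivial, hθ⟩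

lemma U_continuous_ray {θ : En n} (hθ : θ ∈ sph n) (a : ℝ) :
    Continuous fun t => cU k u (a - t) θ :=
  (continuousOn_cU D.hu k).comp_continuous (f := fun t : ℝ => (a - t, θ)) (by fun_prop) fun _ => ⟨trivial, hθ⟩

lemma U_avg_nonneg {h : ℝ} (hh : 0 < h) {θ : En n} (a : ℝ) :
    0 ≤ h⁻¹ * ∫ t in (0 : ℝ)..h, cU k u (a - t) θ :=
  mul_nonneg (inv_nonneg.2 hh.le) (intervalIntegral.integral_nonneg hh.le fun t _ =>
    (mul_pos (Real.exp_pos _) (D.hup _)).le)

lemma Phi_refl {L : ℝ} (hR : ∀ M ≤ L, Refl l v M) {θ : En n} (hθ : θ ∈ sph n) {s t : ℝ}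
    (hs : L < s) (ht : 0 ≤ t) : Phi γ l p v (2 * L - s - t) θ < Phi γ l p v (s - t) θ := by
  have := src_strict D.hγ D.hp D.hvp (L := L - t) (fun M hM => hR M (by linarith)) hθ
    (s := s - t) (by linarith)
  rwa [show 2 * (L - t) - (s - t) = 2 * L - s - t by ring] at this

/-- The smoothed function lies above the reflected average. -/
lemma Y_nonneg {L : ℝ} (hR : ∀ M ≤ L, Refl l v M) {h : ℝ} (hh : 0 < h) {θ : En n}
    (hθ : θ ∈ sph n) {s : ℝ} (hs : L ≤ s) :
    cU k (uAvg k h u) (2 * L - s) θ ≤ cU l (fAux k l b h u v) s θ := by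
  set F := fAux k l b h u v with hF
  set W := uAvg k h u with hW
  have hFc : C2 F := fAux_c2 D.hu D.hv k l b h
  have hWc : C2 W := uAvg_c2 D.hu k h
  have hb0 := D.b_pos
  have hl0 := D.hl
  have hk0 := D.k_pos
  obtain ⟨M₀, hM₀, hMb⟩ := le_on_inner D.huc D.hup L
  set M := Real.exp (k * L) * M₀ with hMd
  have hWb : ∀ θ' ∈ sph n, ∀ σ ≤ L, cU k W σ θ' ≤ M := fun θ' hθ' σ hσ => by
    rw [cU_uAvg D.hu hθ', inv_mul_le_iff₀ hh]
    have := intervalIntegral.integral_mono_on hh.le ((D.U_continuous_ray hθ' σ).intervalIntegrable 0 h)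
      (intervalIntegrable_const (μ := volume) (c := M)) fun t ht => by
        exact mul_le_mul (Real.exp_le_exp.2 (mul_le_mul_of_nonneg_left (by linarith [ht.1]) hk0.le))
          (hMb θ' hθ' _ (by linarith [ht.1])) (D.hup _).le (Real.exp_pos _).le
    simpa using this
  set a := 2 * b / h * Real.exp (-l * h) with had
  have ha : 0 < a := by positivity
  have hFb : ∀ x, x ≠ 0 → -(a * v (Real.exp (-h) • x)) ≤ F x := fun x hx => by
    have h0 : 0 ≤ ‖x‖ ^ b * uAvg k h u x := by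
      refine mul_nonneg (by positivity) (mul_nonneg (inv_nonneg.2 hh.le) ?_)
      exact intervalIntegral.integral_nonneg hh.le fun t _ =>
        (mul_pos (Real.exp_pos _) (D.hup _)).le
    have : 0 ≤ 2 * b / h * v x := mul_nonneg (by positivity) (D.hvp _).le
    simp only [hF, fAux, had]; linarith
  have hFlap : ∀ x, x ≠ 0 → lap F x ≤ 0 := fun x hx => by
    obtain ⟨hθ', he⟩ := pt_log hx
    rw [← he]
    refine le_of_mul_le_mul_left (a := Real.exp ((l + 2) * Real.log ‖x‖)) ?_ (Real.exp_pos _)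
    rw [mul_zero, hF, lap_fAux D.hu D.hv D.hk D.hkl D.h2' hθ']
    refine mul_nonpos_of_nonneg_of_nonpos (inv_nonneg.2 hh.le) ?_
    simp only [D.Phi_eq hθ', intervalIntegral.integral_neg, neg_nonpos]
    exact intervalIntegral.integral_nonneg hh.le fun t _ =>
      (mul_pos (Real.exp_pos _) (Real.rpow_pos_of_pos (mul_pos (Real.exp_pos _) (D.hvp _)) _)).le
  refine le_of_forall_pos_le_add fun ε₀ hε₀ => ?_
  set ε := ε₀ / Real.exp (l * s) with hεd
  have hε : 0 < ε := by positivity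
  have hεe : ε * Real.exp (l * s) = ε₀ := div_mul_cancel₀ _ (Real.exp_pos _).ne'
  obtain ⟨R₀, hR₀, hR₀b⟩ := lower_at_infty D.hn D.hp D.hA D.hB D.hu D.hv D.hup D.hvp D.h1 D.h2
    hFc hFlap ha.le (Real.exp_pos _) hFb (show 0 < ε / 2 by linarith)
  have htend : Tendsto (fun R => ε / 2 * Real.exp (l * R)) atTop atTop :=
    (Real.tendsto_exp_atTop.comp (tendsto_id.const_mul_atTop hl0)).const_mul_atTop (by linarith)
  obtain ⟨R₁, hR₁⟩ := eventually_atTop.1 (htend.eventually_ge_atTop M)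
  set R := max (max R₁ (Real.log R₀)) s with hRd
  let φ : ℝ → ℝ := fun t => -ε * Real.exp (l * t)
  have hφ : ∀ t, HasDerivAt φ (-ε * l * Real.exp (l * t)) t := fun t => by
    refine ((((hasDerivAt_id t).const_mul l).exp).const_mul (-ε)).congr_deriv ?_
    simp; ring
  have hφ' : ∀ t, HasDerivAt (fun t => -ε * l * Real.exp (l * t))
      (-ε * l ^ 2 * Real.exp (l * t)) t := fun t => by
    refine ((((hasDerivAt_id t).const_mul l).exp).const_mul (-ε * l)).congr_deriv ?_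
    simp; ring
  have key := slab_le (lo := L) (hi := R) (c := b)
    (G := fun t θ => cU l F t θ - cU k W (2 * L - t) θ)
    (G1 := fun t θ => cU1 l F t θ + cU1 k W (2 * L - t) θ)
    (G2 := fun t θ => cU2 l F t θ - cU2 k W (2 * L - t) θ)
    (GT := fun t θ => cT l F t θ - cT k W (2 * L - t) θ)
    ((continuousOn_cU hFc l).sub ((continuousOn_cU hWc k).comp
      (f := fun z : ℝ × En n => (2 * L - z.1, z.2)) (by fun_prop) fun _ hz => ⟨trivial, hz.2⟩))
    (fun θ' hθ' t => by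
      refine ((hasDerivAt_cU hFc l t hθ').sub
        ((hasDerivAt_cU hWc k _ hθ').comp_const_sub (2 * L) t)).congr_deriv ?_
      simp)
    (fun θ' hθ' t => by
      refine ((hasDerivAt_cU1 hFc l t hθ').add
        ((hasDerivAt_cU1 hWc k _ hθ').comp_const_sub (2 * L) t)).congr_deriv ?_
      simp [sub_eq_add_neg])
    (fun θ' hθ' t hm => cT_pair_nonneg hFc hWc l k hθ' hm) hφ hφ'
    (fun θ' hθ' => by
      constructor
      · rw [show 2 * L - L = L by ring, hF, hW, cU_fAux D.hu D.hk hθ', cU_uAvg D.hu hθ',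
          add_sub_cancel_left]
        have hm := refl_of_mono (Ls := L) hR hθ' (t := L - h) (s := L) (by linarith) le_rfl
        have : 0 ≤ 2 * b / h * (cU l v L θ' - cU l v (L - h) θ') :=
          mul_nonneg (by positivity) (by linarith)
        simp only [φ]; linarith [mul_pos hε (Real.exp_pos (l * L))]
      · have h1 : M ≤ ε / 2 * Real.exp (l * R) :=
          hR₁ R (le_trans (le_max_left _ _) (le_max_left _ _))
        have h2 : -(ε / 2) ≤ F (pt R θ') := hR₀b _ (by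
          rw [norm_pt hθ', ← Real.exp_log hR₀]
          exact Real.exp_le_exp.2 (le_trans (le_max_right _ _) (le_max_left _ _)))
        have h3 := hWb θ' hθ' (2 * L - R) (by linarith [le_max_right (max R₁ (Real.log R₀)) s])
        have h4 : Real.exp (l * R) * -(ε / 2) ≤ cU l F R θ' :=
          mul_le_mul_of_nonneg_left h2 (Real.exp_pos _).le
        simp only [φ]; linarith)
    (fun θ' hθ' t ht hlt => by
      have e1 := D.F_eq (h := h) hθ' t
      have e2 := D.A_eq (h := h) hθ' (2 * L - t)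
      have hI : (∫ r in (0 : ℝ)..h, Phi γ l p v (2 * L - t - r) θ')
          ≤ ∫ r in (0 : ℝ)..h, Phi γ l p v (t - r) θ' :=
        intervalIntegral.integral_mono_on hh.le ((D.Phi_continuous_ray hθ' _).intervalIntegrable 0 h)
          ((D.Phi_continuous_ray hθ' _).intervalIntegrable 0 h)
          fun r hr => (D.Phi_refl hR hθ' ht.1 hr.1).le
      have hI' := mul_le_mul_of_nonneg_left hI (inv_nonneg.2 hh.le)
      have h5 : k * l * (cU l F t θ' - cU k W (2 * L - t) θ') < k * l * φ t :=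
        mul_lt_mul_of_pos_left hlt (mul_pos hk0 hl0)
      have h6 : k * l * φ t = -ε * l ^ 2 * Real.exp (l * t) + b * (-ε * l * Real.exp (l * t)) := by
        simp only [φ, D.hk]; ring
      simp only [hF, hW] at h5 ⊢
      linarith) θ hθ s ⟨hs, le_max_right _ _⟩
  simp only [φ] at key
  linarith

/-- Positivity of the combination in the limit. -/
lemma Y_pos {L : ℝ} (hR : ∀ M ≤ L, Refl l v M) {θ : En n} (hθ : θ ∈ sph n) {S : ℝ} (hS : L < S) :
    cU k u (2 * L - S) θ < cU k u S θ + 2 * b * cU1 l v S θ := by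
  have hb0 := D.b_pos
  have hl0 := D.hl
  have hk0 := D.k_pos
  set η := (S - L) / 2 with hη
  have hη0 : 0 < η := by linarith
  obtain ⟨⟨t₀, σ₀, θ₀⟩, ⟨ht₀, hσ₀, hθ₀⟩, hmin⟩ := ((isCompact_Icc (a := (0 : ℝ)) (b := 1)).prod
      ((isCompact_Icc (a := S - η) (b := S + η)).prod (isCompact_sphere (0 : En n) 1))).exists_isMinOn
    ⟨(0, S, θ), ⟨by simp, ⟨⟨by linarith, by linarith⟩, hθ⟩⟩⟩
    (f := fun z : ℝ × ℝ × En n => Phi γ l p v (z.2.1 - z.1) z.2.2 - Phi γ l p v (2 * L - z.2.1 - z.1) z.2.2)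
    ((D.Phi_continuous.comp (f := fun z : ℝ × ℝ × En n => (z.2.1 - z.1, z.2.2))
        (Continuous.continuousOn (by fun_prop)) fun z hz => ⟨trivial, hz.2.2⟩).sub
      (D.Phi_continuous.comp (f := fun z : ℝ × ℝ × En n => (2 * L - z.2.1 - z.1, z.2.2))
        (Continuous.continuousOn (by fun_prop)) fun z hz => ⟨trivial, hz.2.2⟩))
  set c := Phi γ l p v (σ₀ - t₀) θ₀ - Phi γ l p v (2 * L - σ₀ - t₀) θ₀ with hcd
  have hc : 0 < c := sub_pos.2 (D.Phi_refl hR hθ₀ (by linarith [hσ₀.1]) ht₀.1)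
  set K := k * l + (2 + 2 * b * η) / η ^ 2 with hK
  have hK0 : 0 < K := by positivity
  set ε := c / (2 * K) with hεd
  have hε : 0 < ε := by positivity
  have hεK : ε * K = c / 2 := by rw [hεd]; field_simp
  have hlow : ∀ h, 0 < h → h ≤ 1 →
      ε ≤ cU l (fAux k l b h u v) S θ - cU k (uAvg k h u) (2 * L - S) θ := by
    intro h hh hh1
    set F := fAux k l b h u v with hF
    set W := uAvg k h u with hW
    have hFc : C2 F := fAux_c2 D.hu D.hv k l b h
    have hWc : C2 W := uAvg_c2 D.hu k h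
    let φ : ℝ → ℝ := fun t => ε * (1 - ((t - S) / η) ^ 2)
    have hφ : ∀ t, HasDerivAt φ (-2 * ε / η ^ 2 * (t - S)) t := fun t => by
      refine ((((((hasDerivAt_id t).sub_const S).div_const η).pow 2)).const_sub 1).const_mul ε
        |>.congr_deriv ?_
      simp; field_simp
    have hφ' : ∀ t, HasDerivAt (fun t => -2 * ε / η ^ 2 * (t - S)) (-2 * ε / η ^ 2) t := fun t => by
      refine (((hasDerivAt_id t).sub_const S).const_mul (-2 * ε / η ^ 2)).congr_deriv ?_
      simp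
    have hnn : ∀ θ' ∈ sph n, ∀ t, L ≤ t → 0 ≤ cU l F t θ' - cU k W (2 * L - t) θ' :=
      fun θ' hθ' t ht => sub_nonneg.2 (D.Y_nonneg hR hh hθ' ht)
    have key := slab_le (lo := S - η) (hi := S + η) (c := b)
      (G := fun t θ => cU l F t θ - cU k W (2 * L - t) θ)
      (G1 := fun t θ => cU1 l F t θ + cU1 k W (2 * L - t) θ)
      (G2 := fun t θ => cU2 l F t θ - cU2 k W (2 * L - t) θ)
      (GT := fun t θ => cT l F t θ - cT k W (2 * L - t) θ)
      ((continuousOn_cU hFc l).sub ((continuousOn_cU hWc k).comp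
        (f := fun z : ℝ × En n => (2 * L - z.1, z.2)) (by fun_prop) fun _ hz => ⟨trivial, hz.2⟩))
      (fun θ' hθ' t => by
        refine ((hasDerivAt_cU hFc l t hθ').sub
          ((hasDerivAt_cU hWc k _ hθ').comp_const_sub (2 * L) t)).congr_deriv ?_
        simp)
      (fun θ' hθ' t => by
        refine ((hasDerivAt_cU1 hFc l t hθ').add
          ((hasDerivAt_cU1 hWc k _ hθ').comp_const_sub (2 * L) t)).congr_deriv ?_
        simp [sub_eq_add_neg])
      (fun θ' hθ' t hm => cT_pair_nonneg hFc hWc l k hθ' hm) hφ hφ'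
      (fun θ' hθ' => by
        constructor <;>
        · refine le_trans (le_of_eq ?_) (hnn θ' hθ' _ (by linarith))
          simp [φ, hη0.ne'])
      (fun θ' hθ' t ht hlt => by
        have e1 := D.F_eq (h := h) hθ' t
        have e2 := D.A_eq (h := h) hθ' (2 * L - t)
        have hI : h * c ≤ (∫ r in (0 : ℝ)..h, Phi γ l p v (t - r) θ')
            - ∫ r in (0 : ℝ)..h, Phi γ l p v (2 * L - t - r) θ' := by
          rw [← intervalIntegral.integral_sub ((D.Phi_continuous_ray hθ' _).intervalIntegrable 0 h)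
            ((D.Phi_continuous_ray hθ' _).intervalIntegrable 0 h)]
          have := intervalIntegral.integral_mono_on hh.le (intervalIntegrable_const (μ := volume) (c := c))
            (((D.Phi_continuous_ray hθ' t).sub (D.Phi_continuous_ray hθ' (2 * L - t))).intervalIntegrable 0 h)
            fun r hr => hmin (show (r, t, θ') ∈ _ from
              ⟨⟨hr.1, hr.2.trans hh1⟩, ⟨⟨ht.1.le, ht.2.le⟩, hθ'⟩⟩)
          simpa using this
        have hI' : c ≤ h⁻¹ * (∫ r in (0 : ℝ)..h, Phi γ l p v (t - r) θ')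
            - h⁻¹ * ∫ r in (0 : ℝ)..h, Phi γ l p v (2 * L - t - r) θ' := by
          rw [← mul_sub, le_inv_mul_iff₀ hh]; exact hI
        have hle : φ t ≤ ε := mul_le_of_le_one_right hε.le (by linarith [sq_nonneg ((t - S) / η)])
        have h5 : k * l * (cU l F t θ' - cU k W (2 * L - t) θ') ≤ k * l * ε :=
          mul_le_mul_of_nonneg_left (hlt.le.trans hle) (mul_pos hk0 hl0).le
        have h7 : -(2 * ε * η / η ^ 2) ≤ -2 * ε / η ^ 2 * (t - S) := by
          rw [show -(2 * ε * η / η ^ 2) = -2 * ε / η ^ 2 * η by ring]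
          refine mul_le_mul_of_nonpos_left (by linarith [ht.2]) ?_
          exact div_nonpos_of_nonpos_of_nonneg (by linarith) (sq_nonneg η)
        have h8 := mul_le_mul_of_nonneg_left h7 hb0.le
        have h9 : ε * K = k * l * ε + 2 * ε / η ^ 2 + b * (2 * ε * η / η ^ 2) := by rw [hK]; ring
        have h10 : -2 * ε / η ^ 2 = -(2 * ε / η ^ 2) := by ring
        simp only [hF, hW] at h5 ⊢
        linarith) θ hθ S ⟨by linarith, by linarith⟩
    simpa [φ] using key
  have hlim1 : ∀ σ, Tendsto (fun h => h⁻¹ * ∫ t in (0 : ℝ)..h, cU k u (σ - t) θ) (𝓝[>] 0)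
      (𝓝 (cU k u σ θ)) := by
    intro σ
    have hd := ((D.U_continuous_ray hθ σ).integral_hasStrictDerivAt 0 0).hasDerivAt
    have h1 := (hasDerivAt_iff_tendsto_slope.1 hd).mono_left
      (nhdsWithin_mono 0 (s := Ioi (0 : ℝ)) fun t ht => ne_of_gt ht)
    simpa [slope_fun_def] using h1
  have hlim2 : Tendsto (fun h => 2 * b / h * (cU l v S θ - cU l v (S - h) θ)) (𝓝[>] 0)
      (𝓝 (2 * b * cU1 l v S θ)) := by
    have hd := ((HasDerivAt.comp_const_sub S 0 (by simpa using hasDerivAt_cU D.hv l S hθ)).const_sub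
      (cU l v S θ)).const_mul (2 * b)
    have h1 := (hasDerivAt_iff_tendsto_slope.1 hd).mono_left
      (nhdsWithin_mono 0 (s := Ioi (0 : ℝ)) fun t ht => ne_of_gt ht)
    simp only [slope_fun_def, neg_neg, sub_zero, sub_self, mul_zero, vsub_eq_sub, smul_eq_mul] at h1
    refine h1.congr fun x => ?_
    ring
  have hge : ε ≤ cU k u S θ + 2 * b * cU1 l v S θ - cU k u (2 * L - S) θ := by
    refine ge_of_tendsto (((hlim1 S).add hlim2).sub (hlim1 (2 * L - S))) ?_
    filter_upwards [Ioo_mem_nhdsGT (show (0 : ℝ) < 1 by norm_num)] with h hh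
    have := hlow h hh.1 hh.2.le
    rwa [cU_fAux D.hu D.hk hθ, cU_uAvg D.hu hθ] at this
  linarith

/-- The differential inequality for the reflected difference of `V`. -/
lemma V_ineq {L : ℝ} (hR : ∀ M ≤ L, Refl l v M) {θ : En n} (hθ : θ ∈ sph n) {s : ℝ} (hs : L < s) :
    cU2 l v s θ - cU2 l v (2 * L - s) θ + -b * (cU1 l v s θ + cU1 l v (2 * L - s) θ)
        + (cT l v s θ - cT l v (2 * L - s) θ)
      < k * l * (cU l v s θ - cU l v (2 * L - s) θ) := by
  have := D.Y_pos hR hθ hs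
  linarith [D.V_eq hθ s, D.V_eq hθ (2 * L - s)]

lemma tail_bound {Ls : ℝ} (hR : ∀ M ≤ Ls, Refl l v M)
    (hstrict : ∀ θ ∈ sph n, ∀ s, Ls < s → cU l v (2 * Ls - s) θ < cU l v s θ) :
    ∃ δ > 0, ∀ θ ∈ sph n, ∀ s ≥ Ls + 1,
      cU l v (2 * Ls - s) θ + δ * Real.exp (-l * s) ≤ cU l v s θ := by
  have hl0 := D.hl
  have hk0 := D.k_pos
  obtain ⟨θm, hθm, hmin⟩ := (isCompact_sphere (0 : En n) 1).exists_isMinOn
    (sph_nonempty (by have := D.hn; omega))
    ((refl_diff_continuous (k := l) D.hv Ls).comp (f := fun θ : En n => (Ls + 1, θ)) (by fun_prop)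
      fun θ hθ => ⟨trivial, hθ⟩)
  set m := cU l v (Ls + 1) θm - cU l v (2 * Ls - (Ls + 1)) θm with hm
  have hm0 : 0 < m := sub_pos.2 (hstrict θm hθm _ (by linarith))
  set δ := m * Real.exp (l * (Ls + 1)) with hδd
  have hδ : 0 < δ := by positivity
  refine ⟨δ, hδ, fun θ hθ s hs => ?_⟩
  refine le_of_forall_pos_le_add fun ε₀ hε₀ => ?_
  set η := ε₀ / Real.exp (k * s) with hηd
  have hη : 0 < η := by positivity
  have hηe : η * Real.exp (k * s) = ε₀ := div_mul_cancel₀ _ (Real.exp_pos _).ne'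
  have htend : Tendsto (fun R => η * Real.exp ((k + l) * R)) atTop atTop :=
    (Real.tendsto_exp_atTop.comp (tendsto_id.const_mul_atTop (by linarith))).const_mul_atTop hη
  obtain ⟨R₁, hR₁⟩ := eventually_atTop.1 (htend.eventually_ge_atTop δ)
  set R := max R₁ s
  let φ : ℝ → ℝ := fun t => δ * Real.exp (-l * t) - η * Real.exp (k * t)
  have hφ : ∀ t, HasDerivAt φ (-l * δ * Real.exp (-l * t) - k * η * Real.exp (k * t)) t := fun t => by
    refine (((((hasDerivAt_id t).const_mul (-l)).exp).const_mul δ).sub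
      ((((hasDerivAt_id t).const_mul k).exp).const_mul η)).congr_deriv ?_
    simp; ring
  have hφ' : ∀ t, HasDerivAt (fun t => -l * δ * Real.exp (-l * t) - k * η * Real.exp (k * t))
      (l ^ 2 * δ * Real.exp (-l * t) - k ^ 2 * η * Real.exp (k * t)) t := fun t => by
    refine (((((hasDerivAt_id t).const_mul (-l)).exp).const_mul (-l * δ)).sub
      ((((hasDerivAt_id t).const_mul k).exp).const_mul (k * η))).congr_deriv ?_
    simp; ring
  have key := slab_le (lo := Ls + 1) (hi := R) (c := -b)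
    (G := fun t θ => cU l v t θ - cU l v (2 * Ls - t) θ)
    (G1 := fun t θ => cU1 l v t θ + cU1 l v (2 * Ls - t) θ)
    (G2 := fun t θ => cU2 l v t θ - cU2 l v (2 * Ls - t) θ)
    (GT := fun t θ => cT l v t θ - cT l v (2 * Ls - t) θ)
    (refl_diff_continuous D.hv Ls) (fun θ' hθ' t => (refl_diff_deriv D.hv Ls hθ' t).1)
    (fun θ' hθ' t => (refl_diff_deriv D.hv Ls hθ' t).2)
    (fun θ' hθ' t hm => cT_sub_nonneg D.hv l hθ' hm) hφ hφ'
    (fun θ' hθ' => by
      constructor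
      · refine le_trans ?_ (hmin hθ')
        show φ (Ls + 1) ≤ m
        have e : δ * Real.exp (-l * (Ls + 1)) = m := by
          rw [hδd, mul_assoc, ← Real.exp_add]; simp
        simp only [φ, e]
        linarith [mul_pos hη (Real.exp_pos (k * (Ls + 1)))]
      · refine le_trans ?_ (sub_nonneg.2 (hR Ls le_rfl θ' hθ' R
          (by linarith [le_max_right R₁ s])))
        have h1 := hR₁ R (le_max_left _ _)
        have e : η * Real.exp (k * R) = η * Real.exp ((k + l) * R) * Real.exp (-l * R) := by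
          rw [mul_assoc, ← Real.exp_add]; ring_nf
        simp only [φ, e]
        nlinarith [Real.exp_pos (-l * R)])
    (fun θ' hθ' t ht hlt => by
      have h1 := D.V_ineq hR hθ' (s := t) (by linarith [ht.1])
      have h5 : k * l * (cU l v t θ' - cU l v (2 * Ls - t) θ') < k * l * φ t :=
        mul_lt_mul_of_pos_left hlt (mul_pos hk0 hl0)
      have h6 : k * l * φ t = l ^ 2 * δ * Real.exp (-l * t) - k ^ 2 * η * Real.exp (k * t)
          + -b * (-l * δ * Real.exp (-l * t) - k * η * Real.exp (k * t)) := by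
        simp only [φ, D.hk]; ring
      linarith) θ hθ s ⟨hs, le_max_right _ _⟩
  simp only [φ] at key
  linarith

lemma tail_near {Ls δ : ℝ} (hδ : 0 < δ)
    (hb : ∀ θ ∈ sph n, ∀ s ≥ Ls + 1,
      cU l v (2 * Ls - s) θ + δ * Real.exp (-l * s) ≤ cU l v s θ) :
    ∃ R, ∃ e > 0, ∀ L, Ls ≤ L → L ≤ Ls + e → ∀ θ ∈ sph n, ∀ s ≥ R,
      cU l v (2 * L - s) θ ≤ cU l v s θ := by
  have hl0 := D.hl
  set a₀ := Real.exp (2 * l * Ls) with ha₀
  set v₀ := v 0
  have hv₀ : 0 < v₀ := D.hvp 0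
  have ht : Tendsto (fun L => (Real.exp (2 * l * L) - a₀) * v₀) (𝓝[>] Ls) (𝓝 0) := by
    have hc : Continuous fun L => (Real.exp (2 * l * L) - a₀) * v₀ := by fun_prop
    simpa [ha₀] using (hc.tendsto Ls).mono_left nhdsWithin_le_nhds
  obtain ⟨L₁, hL₁, hL₁b⟩ := ((ht.eventually_le_const (show 0 < δ / 2 by linarith)).and
    self_mem_nhdsWithin).exists
  set a₁ := Real.exp (2 * l * L₁) with ha₁
  set τ := δ / (2 * (a₁ + a₀)) with hτ
  have hτ0 : 0 < τ := by positivity
  have hτe : τ * (a₁ + a₀) = δ / 2 := by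
    have hpos : 0 < a₁ + a₀ := by positivity
    rw [hτ, div_mul_eq_mul_div, div_eq_div_iff (by positivity) two_ne_zero]
    ring
  obtain ⟨r, hr, hrb⟩ := Metric.continuousAt_iff.1 D.hvc.continuousAt τ hτ0
  refine ⟨max (Ls + 1) (2 * L₁ - Real.log r + 1), L₁ - Ls, sub_pos.2 hL₁b,
    fun L hL hL' θ hθ s hs => ?_⟩
  have hs1 := le_trans (le_max_left _ _) hs
  have hs2 := le_trans (le_max_right _ _) hs
  have hclose : ∀ M ≤ L₁, |v (pt (2 * M - s) θ) - v₀| ≤ τ := fun M hM => by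
    have h1 : dist (pt (2 * M - s) θ) 0 < r := by
      rw [dist_zero_right, norm_pt hθ, ← Real.exp_log hr]
      exact Real.exp_lt_exp.2 (by linarith)
    have := (hrb h1).le
    rwa [Real.dist_eq] at this
  have c1 := (abs_le.1 (hclose L (by linarith))).2
  have c0 := (abs_le.1 (hclose Ls (by linarith))).1
  refine le_trans ?_ (hb θ hθ s hs1)
  have e : ∀ M, cU l v (2 * M - s) θ = Real.exp (-l * s) * (Real.exp (2 * l * M) * v (pt (2 * M - s) θ)) := by
    intro M
    simp only [cU]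
    rw [← mul_assoc, ← Real.exp_add]; ring_nf
  rw [e, e, mul_comm δ, ← mul_add]
  refine mul_le_mul_of_nonneg_left ?_ (Real.exp_pos _).le
  rw [← ha₀]
  have ha : Real.exp (2 * l * L) ≤ a₁ := Real.exp_le_exp.2 (by nlinarith)
  have g1 : Real.exp (2 * l * L) * v (pt (2 * L - s) θ) ≤ a₁ * (v₀ + τ) :=
    mul_le_mul ha (by linarith) (D.hvp _).le (Real.exp_pos _).le
  have g0 : a₀ * (v₀ - τ) ≤ a₀ * v (pt (2 * Ls - s) θ) :=
    mul_le_mul_of_nonneg_left (by linarith) (Real.exp_pos _).le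
  linarith

/-- All planes can be moved. -/
theorem all_refl : ∀ L, Refl l v L := by
  have hn2 : (3 : ℝ) ≤ n := by exact_mod_cast D.hn
  have hnn := D.hn
  have hn0 : 0 < n := by omega
  have hl0 := D.hl
  have h2r : ∀ θ ∈ sph n, ∀ s, lap v (pt s θ) = -(Real.exp (B * s) * u (pt s θ) ^ (1 : ℝ)) :=
    fun θ hθ s => by rw [Real.rpow_one]; exact D.h2 θ hθ s
  have hlow : Low v (2 * l) := by
    have h := low_step (by omega) D.hv D.hvp one_pos h2r
      (low_outer hn0 D.hu D.hup (src_neg D.hvp D.h1) (show (0 : ℝ) < (n : ℝ) - 2 by linarith) le_rfl)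
    rwa [show 1 * ((n : ℝ) - 2) - B - 2 = 2 * l by linarith [D.hkl, D.hk, D.hb]] at h
  let S : Set ℝ := {L | ∀ M ≤ L, Refl l v M}
  obtain ⟨a, ha⟩ : ∃ a, a ∈ S := by
    obtain ⟨s₁, hs₁⟩ := near_zero_sys (by omega) hl0 one_pos D.hB D.hv D.hvc D.huc D.hvp D.hup h2r
    obtain ⟨a₁, ha₁⟩ := start_le hl0 D.hv D.hvc D.hvp hlow le_rfl hs₁
    exact ⟨a₁, ha₁⟩
  by_contra hcon
  push Not at hcon
  obtain ⟨L₁, hL₁⟩ := hcon
  have hbdd : BddAbove S := ⟨L₁, fun L hL => le_of_not_ge fun h => hL₁ (hL L₁ h)⟩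
  set Ls := sSup S
  have hRv : ∀ L ≤ Ls, Refl l v L := refl_closed D.hv fun L hL => by
    obtain ⟨b', hb', hLb⟩ := exists_lt_of_lt_csSup ⟨a, ha⟩ hL
    exact hb' L hLb.le
  obtain ⟨sv1, sv2⟩ := strict_of_ineq hn0 D.hv (c := -b) (β := k * l) (hRv Ls le_rfl)
    fun θ hθ s hs => D.V_ineq hRv hθ hs
  obtain ⟨δ, hδ, hδb⟩ := D.tail_bound hRv sv1
  obtain ⟨R, e, he, hRe⟩ := D.tail_near hδ hδb
  obtain ⟨ε, hε, hε'⟩ := extend_near D.hv he hRv sv1 sv2 hRe
  have hmem : Ls + ε ∈ S := fun M hM => hε' M hM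
  linarith [le_csSup hbdd hmem]

end Data

end Vale.Agent.P100.Fourth
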